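import Vale.Agent.P253.H661.Embed

/-!
P253: bijective holomorphic self-maps are biholomorphisms.
-/

open scoped Manifold ContDiff Topology Bundle
open Set Metric Complex Filter Bundle IsManifold Manifold Vale.Agent.P253.Mfd

set_option maxSynthPendingDepth 3
set_option linter.unusedSectionVars false

noncomputable section

namespace Vale.Agent.P253.H661

variable {E : Type*} [NormedAddCommGroup E] [NormedSpace ℂ E] [FiniteDimensional ℂ E]
  {M : Type*} [MetricSpace M] [ChartedSpace E M] [IsManifold 𝓘(ℂ, E) 1 M]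

/-- a bijective holomorphic self-map is a biholomorphism -/
theorem exists_diffeo_of_bijective (hO : Osg E) {f : M → M}
    (hf : MDifferentiable 𝓘(ℂ, E) 𝓘(ℂ, E) f) (hb : Function.Bijective f) :
    ∃ g : M ≃ₘ^1⟮𝓘(ℂ, E), 𝓘(ℂ, E)⟯ M, ∀ x, g x = f x := by
  have hCE : CompleteSpace E := FiniteDimensional.complete ℂ E
  have hf1 : ContMDiff 𝓘(ℂ, E) 𝓘(ℂ, E) 1 f := fun x =>
    contMDiffAt_of_mdiff isOpen_univ (mem_univ x) fun y _ => hf y
  set Q : M ≃ M := Equiv.ofBijective f hb with hQ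
  have hQa : ∀ x, Q x = f x := fun x => rfl
  have hinv : ContMDiff 𝓘(ℂ, E) 𝓘(ℂ, E) 1 Q.symm := by
    intro y
    obtain ⟨x, rfl⟩ := hb.2 y
    set e := chartAt E x with he
    set φ := chartAt E (f x) with hφ
    have hem : e ∈ maximalAtlas 𝓘(ℂ, E) 1 M := chart_mem_maximalAtlas x
    have hφm : φ ∈ maximalAtlas 𝓘(ℂ, E) 1 M := chart_mem_maximalAtlas (f x)
    have hxs : x ∈ e.source := mem_chart_source E x
    have hys : f x ∈ φ.source := mem_chart_source E (f x)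
    have hO1 : IsOpen (e.target ∩ e.symm ⁻¹' (f ⁻¹' φ.source)) :=
      e.continuousOn_symm.isOpen_inter_preimage e.open_target
        (φ.open_source.preimage hf1.continuous)
    set O := e.target ∩ e.symm ⁻¹' (f ⁻¹' φ.source) with hOdef
    have hxO : e x ∈ O := ⟨e.map_source hxs, by
      simp only [mem_preimage, e.left_inv hxs]; exact hys⟩
    have hdiff : DifferentiableOn ℂ (fun z => φ (f (e.symm z))) O := by
      intro z hz
      have h1 : MDifferentiableAt 𝓘(ℂ, E) 𝓘(ℂ, E) e.symm z :=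
        ((contMDiffOn_symm_of_mem_maximalAtlas hem).contMDiffAt
          (e.open_target.mem_nhds hz.1)).mdifferentiableAt (by simp)
      have h3 : MDifferentiableAt 𝓘(ℂ, E) 𝓘(ℂ, E) φ (f (e.symm z)) :=
        ((contMDiffOn_of_mem_maximalAtlas hφm).contMDiffAt
          (φ.open_source.mem_nhds hz.2)).mdifferentiableAt (by simp)
      have h4 := h3.comp z ((hf _).comp z h1)
      exact h4.differentiableAt.differentiableWithinAt
    have hinjO : InjOn (fun z => φ (f (e.symm z))) O := by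
      intro u hu v hv huv
      exact e.symm.injOn hu.1 hv.1 (hb.1 (φ.injOn hu.2 hv.2 huv))
    obtain ⟨Ψ, hΨ0, hΨs, hΨa, -, hΨc⟩ := R2.H451.exists_inverse_chart' hO1 hdiff hxO
      (hO _ _ hO1 hdiff hinjO _ hxO)
    have hyt : φ (f x) ∈ Ψ.target := by
      have h1 := Ψ.map_source hΨ0
      rw [hΨa] at h1
      simp only [e.left_inv hxs] at h1
      exact h1
    have hN : IsOpen (φ.source ∩ φ ⁻¹' Ψ.target) :=
      φ.continuousOn.isOpen_inter_preimage φ.open_source Ψ.open_target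
    have hev : ∀ᶠ y' in 𝓝 (f x), Q.symm y' = e.symm (Ψ.symm (φ y')) := by
      filter_upwards [hN.mem_nhds ⟨hys, hyt⟩] with y' hy'
      have h1 : Ψ.symm (φ y') ∈ Ψ.source := Ψ.map_target hy'.2
      have h2 := hΨs h1
      rw [Equiv.symm_apply_eq, hQa]
      refine φ.injOn hy'.1 h2.2 ?_
      have h3 := Ψ.right_inv hy'.2
      rw [hΨa] at h3
      exact h3.symm
    have k1 : ContMDiffAt 𝓘(ℂ, E) 𝓘(ℂ, E) 1 φ (f x) :=
      (contMDiffOn_of_mem_maximalAtlas hφm).contMDiffAt (φ.open_source.mem_nhds hys)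
    have k2 : ContMDiffAt 𝓘(ℂ, E) 𝓘(ℂ, E) 1 Ψ.symm (φ (f x)) :=
      ((hΨc _ hyt).of_le (by simp : (1:WithTop ℕ∞) ≤ ∞)).contMDiffAt
    have k3 : ContMDiffAt 𝓘(ℂ, E) 𝓘(ℂ, E) 1 e.symm (Ψ.symm (φ (f x))) :=
      (contMDiffOn_symm_of_mem_maximalAtlas hem).contMDiffAt
        (e.open_target.mem_nhds (hΨs (Ψ.map_target hyt)).1)
    have k4 : ContMDiffAt 𝓘(ℂ, E) 𝓘(ℂ, E) 1 (fun y' => Ψ.symm (φ y')) (f x) :=
      ContMDiffAt.comp (f x) (g := Ψ.symm) k2 k1
    have k5 : ContMDiffAt 𝓘(ℂ, E) 𝓘(ℂ, E) 1 (fun y' => e.symm (Ψ.symm (φ y'))) (f x) :=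
      ContMDiffAt.comp (f x) (g := e.symm) k3 k4
    exact k5.congr_of_eventuallyEq hev
  exact ⟨{ toEquiv := Q, contMDiff_toFun := hf1, contMDiff_invFun := hinv }, fun x => rfl⟩

/-- bijective holomorphic self-maps which attract to a point -/
theorem exists_diffeo_of_attracts_bijective (hO : Osg E) {f : M → M}
    (hf : MDifferentiable 𝓘(ℂ, E) 𝓘(ℂ, E) f) (hb : Function.Bijective f) {p : M} (hp : f p = p)
    (hc : ∀ C : Set M, IsCompact C → ∀ W ∈ 𝓝 p, ∀ᶠ k : ℕ in atTop, ∀ x ∈ C, f^[k] x ∈ W) :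
    ∃ F : M ≃ₘ^1⟮𝓘(ℂ, E), 𝓘(ℂ, E)⟯ E, F p = 0 ∧
      ∀ v : E, (mfderiv 𝓘(ℂ, E) 𝓘(ℂ, E) F p : E → E) v = v := by
  obtain ⟨g, hg⟩ := exists_diffeo_of_bijective hO hf hb
  have hgf : (g : M → M) = f := funext hg
  refine exists_diffeo_of_attracts g (by rw [hg, hp]) ?_
  rw [hgf]
  exact hc

end Vale.Agent.P253.H661
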