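import Vale.Agent.P253.H661.Basin

/-!
P253: automorphisms whose iterates converge locally uniformly to a point (glue and converse).
-/

open scoped Manifold ContDiff Topology Bundle
open Set Metric Complex Filter Bundle IsManifold Manifold

set_option maxSynthPendingDepth 3
set_option linter.unusedSectionVars false

noncomputable section

namespace Vale.Agent.P253.H661

variable {E : Type*} [NormedAddCommGroup E] [NormedSpace ℂ E] [FiniteDimensional ℂ E]
  {M : Type*} [MetricSpace M] [ChartedSpace E M] [IsManifold 𝓘(ℂ, E) 1 M]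

/-- the iterates converge to the point `p` locally uniformly -/
def Attracts {X : Type*} [TopologicalSpace X] (f : X → X) (p : X) : Prop :=
  ∀ C : Set X, IsCompact C → ∀ W ∈ 𝓝 p, ∀ᶠ k : ℕ in atTop, ∀ x ∈ C, f^[k] x ∈ W

theorem Attracts.tendsto {f : M → M} {p : M} (h : Attracts f p) (x : M) :
    Tendsto (fun k : ℕ => f^[k] x) atTop (𝓝 p) := by
  rw [tendsto_def]
  intro W hW
  filter_upwards [h {x} isCompact_singleton W hW] with k hk
  exact hk x rfl

theorem Attracts.exists_nhds [LocallyCompactSpace M] {f : M → M} {p : M}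
    (h : Attracts f p) :
    ∃ U ∈ 𝓝 p, ∀ W ∈ 𝓝 p, ∀ᶠ k : ℕ in atTop, ∀ x ∈ U, f^[k] x ∈ W := by
  obtain ⟨C, hC, hCn⟩ := exists_compact_mem_nhds p
  exact ⟨C, hCn, fun W hW => h C hC W hW⟩

/-- **automorphisms which attract to a point** -/
theorem exists_diffeo_of_attracts (f : M ≃ₘ^1⟮𝓘(ℂ, E), 𝓘(ℂ, E)⟯ M) {p : M} (hp : f p = p)
    (hc : ∀ C : Set M, IsCompact C → ∀ W ∈ 𝓝 p, ∀ᶠ k : ℕ in atTop, ∀ x ∈ C, f^[k] x ∈ W) :
    ∃ F : M ≃ₘ^1⟮𝓘(ℂ, E), 𝓘(ℂ, E)⟯ E, F p = 0 ∧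
      ∀ v : E, (mfderiv 𝓘(ℂ, E) 𝓘(ℂ, E) F p : E → E) v = v := by
  have h : Attracts f p := hc
  have : LocallyCompactSpace E := by
    have : ProperSpace E := FiniteDimensional.proper ℂ E
    infer_instance
  have : LocallyCompactSpace M := ChartedSpace.locallyCompactSpace E M
  obtain ⟨F, h0, h1⟩ := basin_auto f hp h.exists_nhds h.tendsto
  exact ⟨F, h0, fun v => by rw [h1.mfderiv]; rfl⟩

/-- the dilation by `1/2` -/
def half (E : Type*) [NormedAddCommGroup E] [NormedSpace ℂ E] :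
    E ≃ₘ^1⟮𝓘(ℂ, E), 𝓘(ℂ, E)⟯ E where
  toFun v := (1 / 2 : ℂ) • v
  invFun v := (2 : ℂ) • v
  left_inv v := by simp [smul_smul]
  right_inv v := by simp [smul_smul]
  contMDiff_toFun := (contDiff_const_smul (1 / 2 : ℂ)).contMDiff
  contMDiff_invFun := (contDiff_const_smul (2 : ℂ)).contMDiff

theorem half_iter (k : ℕ) (v : E) : (half E)^[k] v = ((1 / 2 : ℂ) ^ k) • v := by
  induction k with
  | zero => simp
  | succ k ih =>
    rw [Function.iterate_succ_apply', ih]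
    change (1 / 2 : ℂ) • ((1 / 2 : ℂ) ^ k • v) = _
    rw [smul_smul, pow_succ']

/-- `ℂⁿ` has an automorphism with a compact set which meets all orbits -/
theorem exists_absorbing_auto (F : M ≃ₘ^1⟮𝓘(ℂ, E), 𝓘(ℂ, E)⟯ E) :
    ∃ f : M ≃ₘ^1⟮𝓘(ℂ, E), 𝓘(ℂ, E)⟯ M, ∃ K : Set M, IsCompact K ∧
      ∀ x, ∃ k : ℕ, f^[k] x ∈ K := by
  have hPE : ProperSpace E := FiniteDimensional.proper ℂ E
  refine ⟨(F.trans (half E)).trans F.symm, F.symm '' closedBall 0 1,
    (isCompact_closedBall 0 1).image F.symm.continuous, fun x => ?_⟩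
  have h1 : ∀ k : ℕ, (((F.trans (half E)).trans F.symm : M ≃ₘ^1⟮𝓘(ℂ, E), 𝓘(ℂ, E)⟯ M) : M → M)^[k] x =
      F.symm (((1 / 2 : ℂ) ^ k) • F x) := by
    intro k
    induction k with
    | zero => simp
    | succ k ih =>
      rw [Function.iterate_succ_apply', ih]
      change F.symm ((half E) (F (F.symm (((1 / 2 : ℂ) ^ k) • F x)))) = _
      rw [F.apply_symm_apply]
      change F.symm ((1 / 2 : ℂ) • ((1 / 2 : ℂ) ^ k • F x)) = _
      rw [smul_smul, pow_succ']
  have h2 : Tendsto (fun k : ℕ => ‖((1 / 2 : ℂ) ^ k) • F x‖) atTop (𝓝 0) := by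
    have h3 : Tendsto (fun k : ℕ => ((1 / 2 : ℝ)) ^ k * ‖F x‖) atTop (𝓝 (0 * ‖F x‖)) :=
      (tendsto_pow_atTop_nhds_zero_of_lt_one (by norm_num) (by norm_num)).mul_const _
    rw [zero_mul] at h3
    refine h3.congr fun k => ?_
    rw [norm_smul, norm_pow]
    norm_num
  obtain ⟨k, hk⟩ := (h2.eventually (gt_mem_nhds one_pos)).exists
  refine ⟨k, ?_⟩
  rw [h1]
  exact mem_image_of_mem _ (mem_closedBall_zero_iff.2 hk.le)

end Vale.Agent.P253.H661
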