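import Vale.Agent.P253.H577.Rig
import Vale.Agent.P253.Bdl.B1
import Mathlib.Analysis.Complex.Schwarz
import Mathlib.Analysis.Calculus.UniformLimitsDeriv

/-!
P253: locally uniform limits of holomorphic self-maps are holomorphic; an idempotent holomorphic
self-map with injective differential at a fixed point is the identity.
-/

open scoped Manifold ContDiff Topology Bundle
open Set Metric Complex Filter Bundle IsManifold Manifold Vale.Agent.P253.Mfd

set_option maxSynthPendingDepth 3
set_option linter.unusedSectionVars false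

noncomputable section

namespace Vale.Agent.P253.H661

section flat

variable {E : Type*} [NormedAddCommGroup E] [NormedSpace ℂ E]
  {F : Type*} [NormedAddCommGroup F] [NormedSpace ℂ F]

/-- Cauchy estimate in any dimension. -/
theorem cauchy_est {u : E → F} {x : E} {R C : ℝ} (hR : 0 < R)
    (hd : DifferentiableOn ℂ u (ball x R)) (hC : ∀ y ∈ ball x R, ‖u y‖ ≤ C) :
    ‖fderiv ℂ u x‖ ≤ 2 * C / R := by
  refine Complex.norm_fderiv_le_div_of_mapsTo_ball hd (fun y hy => ?_) hR
  rw [mem_closedBall, dist_eq_norm]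
  have h1 := norm_sub_le (u y) (u x)
  have h2 := hC y hy
  have h3 := hC x (mem_ball_self hR)
  linarith

/-- Uniform limits of holomorphic functions are holomorphic, in any dimension, along any filter. -/
theorem limit_hol [CompleteSpace F] {ι : Type*} {l : Filter ι} [l.NeBot] {u : ι → E → F}
    {w : E → F} {s : Set E}
    (hs : IsOpen s) (hu : ∀ n, DifferentiableOn ℂ (u n) s)
    (h : TendstoUniformlyOn u w l s) : DifferentiableOn ℂ w s := by
  intro x hx
  obtain ⟨r, hr, hrs⟩ := Metric.isOpen_iff.1 hs x hx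
  set ρ : ℝ := r / 2 with hρ
  have hρ0 : 0 < ρ := by positivity
  have hball : ∀ y ∈ ball x ρ, ball y ρ ⊆ s := by
    intro y hy z hz
    apply hrs
    rw [mem_ball] at *
    have := dist_triangle z y x
    linarith
  have hC : UniformCauchySeqOn (fun n y => fderiv ℂ (u n) y) l (ball x ρ) := by
    have hC0 := h.uniformCauchySeqOn
    intro U hU
    obtain ⟨ε, hε, hεU⟩ := Metric.mem_uniformity_dist.1 hU
    have h1 := hC0 _ (Metric.dist_mem_uniformity (show 0 < ε * ρ / 4 by positivity))
    filter_upwards [h1] with m hm y hy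
    apply hεU
    have hsub : ball y ρ ⊆ s := hball y hy
    have hys : y ∈ s := hsub (mem_ball_self hρ0)
    have hdm := (hu m.1).mono hsub
    have hdn := (hu m.2).mono hsub
    have h2 : fderiv ℂ (u m.1) y - fderiv ℂ (u m.2) y = fderiv ℂ (fun z => u m.1 z - u m.2 z) y := by
      rw [fderiv_fun_sub ((hu m.1).differentiableAt (hs.mem_nhds hys))
        ((hu m.2).differentiableAt (hs.mem_nhds hys))]
    rw [dist_eq_norm, h2]
    have h3 := cauchy_est (C := ε * ρ / 4) hρ0 (hdm.sub hdn) (fun z hz => by
      have := hm z (hsub hz)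
      change dist (u m.1 z) (u m.2 z) < _ at this
      rw [dist_eq_norm] at this
      exact this.le)
    calc _ ≤ 2 * (ε * ρ / 4) / ρ := h3
      _ = ε / 2 := by field_simp; ring
      _ < ε := by linarith
  have hpt : ∀ y ∈ ball x ρ, ∃ g : E →L[ℂ] F, Tendsto (fun n => fderiv ℂ (u n) y) l (𝓝 g) :=
    fun y hy => CompleteSpace.complete (hC.cauchy_map hy)
  choose! g hg using hpt
  have hg' : TendstoUniformlyOn (fun n y => fderiv ℂ (u n) y) g l (ball x ρ) :=
    hC.tendstoUniformlyOn_of_tendsto hg
  have hxs : ball x ρ ⊆ s := hball x (mem_ball_self hρ0)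
  have hfin : HasFDerivAt w (g x) x :=
    hasFDerivAt_of_tendstoUniformlyOn isOpen_ball hg'
      (fun n y hy => ((hu n).differentiableAt (hs.mem_nhds (hxs hy))).hasFDerivAt)
      (fun y hy => h.tendsto_at (hxs hy)) (mem_ball_self hρ0)
  exact hfin.differentiableAt.differentiableWithinAt

end flat

variable {E : Type*} [NormedAddCommGroup E] [NormedSpace ℂ E] [FiniteDimensional ℂ E]
  {M : Type*} [MetricSpace M] [ChartedSpace E M] [IsManifold 𝓘(ℂ, E) 1 M]

/-- **Locally uniform limits of holomorphic self-maps are holomorphic**, along any filter. -/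
theorem holo_lim {ι : Type*} {u : Filter ι} [NeBot u] {g : ι → M → M}
    (hg : ∀ j, MDifferentiable 𝓘(ℂ, E) 𝓘(ℂ, E) (g j)) {F : M → M}
    (h : ∀ x, ∀ ε > 0, ∃ U ∈ 𝓝 x, ∀ᶠ j in u, ∀ y ∈ U, dist (g j y) (F y) < ε) :
    MDifferentiable 𝓘(ℂ, E) 𝓘(ℂ, E) F := by
  have hCE : CompleteSpace E := FiniteDimensional.complete ℂ E
  have hPE : ProperSpace E := FiniteDimensional.proper ℂ E
  have hlc : LocallyCompactSpace M := ChartedSpace.locallyCompactSpace E M
  have hTLU : TendstoLocallyUniformly g F u := by
    rw [Metric.tendstoLocallyUniformly_iff]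
    intro ε hε x
    obtain ⟨U, hU, h1⟩ := h x ε hε
    refine ⟨U, hU, h1.mono fun j hj y hy => ?_⟩
    rw [dist_comm]
    exact hj y hy
  have hFc : Continuous F :=
    hTLU.continuous (Eventually.of_forall fun j => (hg j).continuous).frequently
  intro x
  set e := chartAt E x with he
  set c := chartAt E (F x) with hc
  have hem : e ∈ maximalAtlas 𝓘(ℂ, E) 1 M := chart_mem_maximalAtlas x
  have hcm : c ∈ maximalAtlas 𝓘(ℂ, E) 1 M := chart_mem_maximalAtlas (F x)
  -- a compact neighbourhood of the value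
  obtain ⟨K, hK, hKs, hKc⟩ := local_compact_nhds (c.open_source.mem_nhds (mem_chart_source E (F x)))
  obtain ⟨ρ, hρ, hρK⟩ := Metric.mem_nhds_iff.1 hK
  -- a closed ball in the chart around `x` whose points are mapped near `F x`
  have hsymm : ContinuousAt e.symm (e x) := e.continuousAt_symm (e.map_source (mem_chart_source E x))
  have hFx : ∀ᶠ z in 𝓝 (e x), z ∈ e.target ∧ F (e.symm z) ∈ ball (F x) (ρ / 2) := by
    have h1 : ContinuousAt (fun z => F (e.symm z)) (e x) :=
      ContinuousAt.comp (x := e x) (g := F) hFc.continuousAt hsymm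
    have h2 : ball (F x) (ρ / 2) ∈ 𝓝 (F (e.symm (e x))) := by
      rw [e.left_inv (mem_chart_source E x)]
      exact ball_mem_nhds _ (by positivity)
    exact (e.open_target.eventually_mem (e.map_source (mem_chart_source E x))).and (h1 h2)
  obtain ⟨r, hr, hrB⟩ := Metric.nhds_basis_closedBall.eventually_iff.1 hFx
  have hBc : IsCompact (e.symm '' closedBall (e x) r) :=
    (isCompact_closedBall (e x) r).image_of_continuousOn
      (e.continuousOn_symm.mono fun z hz => (hrB hz).1)
  have hunif : TendstoUniformlyOn g F u (e.symm '' closedBall (e x) r) :=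
    tendstoLocallyUniformly_iff_forall_isCompact.1 hTLU _ hBc
  have hmet : ∀ ε > 0, ∀ᶠ j in u, ∀ z ∈ closedBall (e x) r,
      dist (g j (e.symm z)) (F (e.symm z)) < ε := by
    intro ε hε
    filter_upwards [Metric.tendstoUniformlyOn_iff.1 hunif ε hε] with j hj z hz
    rw [dist_comm]
    exact hj _ (mem_image_of_mem _ hz)
  have hgood : ∀ᶠ j in u, ∀ z ∈ closedBall (e x) r, g j (e.symm z) ∈ K := by
    filter_upwards [hmet (ρ / 2) (by positivity)] with j hj z hz
    refine hρK ?_
    have h1 := hj z hz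
    have h2 := (hrB hz).2
    rw [mem_ball] at h2 ⊢
    have h3 := dist_triangle (g j (e.symm z)) (F (e.symm z)) (F x)
    linarith
  have hFK : ∀ z ∈ closedBall (e x) r, F (e.symm z) ∈ K := by
    intro z hz
    refine hρK ?_
    have h2 := (hrB hz).2
    rw [mem_ball] at h2 ⊢
    linarith
  -- the maps in the charts
  classical
  set G : ι → E → E := fun j z =>
    if ∀ w ∈ closedBall (e x) r, g j (e.symm w) ∈ K then c (g j (e.symm z)) else 0 with hG
  have hGd : ∀ j, DifferentiableOn ℂ (G j) (ball (e x) r) := by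
    intro j
    by_cases hj : ∀ w ∈ closedBall (e x) r, g j (e.symm w) ∈ K
    · have h0 : G j = fun z => c (g j (e.symm z)) := by
        funext z
        simp only [hG, if_pos hj]
      rw [h0]
      intro z hz
      have hz' : z ∈ closedBall (e x) r := ball_subset_closedBall hz
      have h1 : MDifferentiableAt 𝓘(ℂ, E) 𝓘(ℂ, E) e.symm z :=
        ((contMDiffOn_symm_of_mem_maximalAtlas hem).contMDiffAt
          (e.open_target.mem_nhds (hrB hz').1)).mdifferentiableAt (by simp)
      have h2 : MDifferentiableAt 𝓘(ℂ, E) 𝓘(ℂ, E) (g j) (e.symm z) := hg j _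
      have h3 : MDifferentiableAt 𝓘(ℂ, E) 𝓘(ℂ, E) c (g j (e.symm z)) :=
        ((contMDiffOn_of_mem_maximalAtlas hcm).contMDiffAt
          (c.open_source.mem_nhds (hKs (hj z hz')))).mdifferentiableAt (by simp)
      have h4 := h3.comp z (h2.comp z h1)
      exact h4.differentiableAt.differentiableWithinAt
    · have h0 : G j = fun _ => 0 := by
        funext z
        simp only [hG, if_neg hj]
      rw [h0]
      exact differentiableOn_const _
  have hGu : TendstoUniformlyOn G (fun z => c (F (e.symm z))) u (ball (e x) r) := by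
    rw [Metric.tendstoUniformlyOn_iff]
    intro ε hε
    have h1 := hKc.uniformContinuousOn_of_continuous (c.continuousOn.mono hKs)
    obtain ⟨δ, hδ, h2⟩ := Metric.uniformContinuousOn_iff.1 h1 ε hε
    filter_upwards [hmet δ hδ, hgood] with j hj hjg z hz
    have hz' : z ∈ closedBall (e x) r := ball_subset_closedBall hz
    have h0 : G j z = c (g j (e.symm z)) := by simp only [hG, if_pos hjg]
    rw [h0, dist_comm]
    exact h2 _ (hjg z hz') _ (hFK z hz') (hj z hz')
  have hfin := limit_hol isOpen_ball hGd hGu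
  have hat : DifferentiableAt ℂ (fun z => c (F (e.symm z))) (e x) :=
    hfin.differentiableAt (isOpen_ball.mem_nhds (mem_ball_self hr))
  rw [mdifferentiableAt_iff]
  refine ⟨hFc.continuousAt, ?_⟩
  have h5 : writtenInExtChartAt 𝓘(ℂ, E) 𝓘(ℂ, E) x F = fun z => c (F (e.symm z)) := by
    funext z
    simp [writtenInExtChartAt, he, hc]
  rw [h5]
  simp only [extChartAt, mfld_simps]
  exact hat.differentiableWithinAt

/-- **A holomorphic retraction whose differential is injective at a fixed point is the identity.** -/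
theorem idem_id [ConnectedSpace M] {e : M → M} (he : MDifferentiable 𝓘(ℂ, E) 𝓘(ℂ, E) e)
    (hee : ∀ x, e (e x) = e x) {x₁ : M} (h1 : e x₁ = x₁)
    (hinj : ∀ Y : E, fderiv ℂ (fun z => chartAt E x₁ (e ((chartAt E x₁).symm z)))
      (chartAt E x₁ x₁) Y = 0 → Y = 0) (x : M) : e x = x := by
  have hCE : CompleteSpace E := FiniteDimensional.complete ℂ E
  refine H577.eq_id_of_eventually he (p := x₁) ?_ x
  set c := chartAt E x₁ with hc
  have hcm : c ∈ maximalAtlas 𝓘(ℂ, E) 1 M := chart_mem_maximalAtlas x₁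
  have hx₁ : x₁ ∈ c.source := mem_chart_source E x₁
  set R : E → E := fun z => c (e (c.symm z)) with hR
  set z₁ : E := c x₁ with hz₁
  have hU : IsOpen (c.target ∩ c.symm ⁻¹' (c.source ∩ e ⁻¹' c.source)) :=
    c.continuousOn_symm.isOpen_inter_preimage c.open_target
      (c.open_source.inter (c.open_source.preimage he.continuous))
  have hz₁U : z₁ ∈ c.target ∩ c.symm ⁻¹' (c.source ∩ e ⁻¹' c.source) := by
    refine ⟨c.map_source hx₁, ?_⟩
    simp only [mem_preimage, mem_inter_iff, hz₁, c.left_inv hx₁, h1]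
    exact ⟨hx₁, hx₁⟩
  set U := c.target ∩ c.symm ⁻¹' (c.source ∩ e ⁻¹' c.source) with hUdef
  have hRd : DifferentiableOn ℂ R U := by
    intro z hz
    have k1 : MDifferentiableAt 𝓘(ℂ, E) 𝓘(ℂ, E) c.symm z :=
      ((contMDiffOn_symm_of_mem_maximalAtlas hcm).contMDiffAt
        (c.open_target.mem_nhds hz.1)).mdifferentiableAt (by simp)
    have k2 : MDifferentiableAt 𝓘(ℂ, E) 𝓘(ℂ, E) e (c.symm z) := he _
    have k3 : MDifferentiableAt 𝓘(ℂ, E) 𝓘(ℂ, E) c (e (c.symm z)) :=
      ((contMDiffOn_of_mem_maximalAtlas hcm).contMDiffAt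
        (c.open_source.mem_nhds hz.2.2)).mdifferentiableAt (by simp)
    have k4 := k3.comp z (k2.comp z k1)
    exact k4.differentiableAt.differentiableWithinAt
  have hstrict : HasStrictFDerivAt R (fderiv ℂ R z₁) z₁ :=
    ((contDiffOn_of_differentiableOn_complex hU hRd).contDiffAt
      (hU.mem_nhds hz₁U)).hasStrictFDerivAt (by simp)
  have hRz : R z₁ = z₁ := by simp only [hR, hz₁, c.left_inv hx₁, h1]
  have hRR : ∀ z ∈ U, R (R z) = R z := by
    intro z hz
    simp only [hR]
    rw [c.left_inv hz.2.2, hee]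
  -- the differential is a bijection
  have hker : Function.Injective (fderiv ℂ R z₁) := by
    rw [injective_iff_map_eq_zero]
    exact hinj
  set L : E ≃L[ℂ] E := (LinearEquiv.ofInjectiveEndo (fderiv ℂ R z₁ : E →ₗ[ℂ] E)
    hker).toContinuousLinearEquiv with hL
  have hLe : (L : E →L[ℂ] E) = fderiv ℂ R z₁ := by
    ext v
    rfl
  rw [← hLe] at hstrict
  have hmap : map R (𝓝 z₁) = 𝓝 z₁ := by
    have := hstrict.map_nhds_eq_of_equiv
    rwa [hRz] at this
  have hev : ∀ᶠ w in 𝓝 z₁, R w = w := by
    rw [← hmap, eventually_map]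
    exact (hU.eventually_mem hz₁U).mono hRR
  have hc₁ : ContinuousAt c x₁ := c.continuousAt hx₁
  have hev2 : ∀ᶠ y in 𝓝 x₁, R (c y) = c y := hc₁.eventually hev
  have hev3 : ∀ᶠ y in 𝓝 x₁, y ∈ c.source ∧ e y ∈ c.source := by
    refine (c.open_source.eventually_mem hx₁).and ?_
    refine he.continuous.continuousAt.eventually (c.open_source.eventually_mem ?_)
    rw [h1]
    exact hx₁
  filter_upwards [hev2, hev3] with y hy hy'
  simp only [hR, c.left_inv hy'.1] at hy
  exact c.injOn hy'.2 hy'.1 hy

end Vale.Agent.P253.H661
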