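import Vale.Agent.P253.H836.Chain
import Vale.Agent.P253.H502.LipMul
import Vale.Agent.P253.H502.Nonexp

/-!
P253: if the differential of a holomorphic self-map `f` has norm at most `l (dist o x)` at `x` and
`dist o (f o) + ∫_0^r l < r` for all large `r`, then every orbit of `f` meets a fixed compact ball.
-/

open scoped Manifold ContDiff Topology Bundle
open Set Metric Complex Filter Bundle IsManifold Manifold Vale.Agent.P253.Mfd

set_option maxSynthPendingDepth 3
set_option linter.unusedSectionVars false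

noncomputable section

namespace Vale.Agent.P253.H661

/-- a continuous self-map of a proper space which brings the points off a ball closer to its centre:
every orbit meets the ball -/
theorem meet_of_dist_lt {X : Type*} [MetricSpace X] [ProperSpace X] {f : X → X}
    (hf : Continuous f) {o : X} {R : ℝ} (h : ∀ x, R ≤ dist o x → dist o (f x) < dist o x) (x : X) :
    ∃ k : ℕ, f^[k] x ∈ closedBall o R := by
  by_contra hcon
  push Not at hcon
  have hR : ∀ k : ℕ, R < dist o (f^[k] x) := by
    intro k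
    have := hcon k
    rw [mem_closedBall, dist_comm, not_le] at this
    exact this
  have hlt : ∀ k : ℕ, dist o (f^[k + 1] x) < dist o (f^[k] x) := by
    intro k
    rw [Function.iterate_succ_apply']
    exact h _ (hR k).le
  have hanti : Antitone fun k : ℕ => dist o (f^[k] x) := antitone_nat_of_succ_le fun k => (hlt k).le
  have hbdd : BddBelow (range fun k : ℕ => dist o (f^[k] x)) :=
    ⟨R, by rintro _ ⟨k, rfl⟩; exact (hR k).le⟩
  have hlim := tendsto_atTop_ciInf hanti hbdd
  set ρ : ℝ := ⨅ k : ℕ, dist o (f^[k] x) with hρ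
  have hmem : ∀ k : ℕ, f^[k] x ∈ closedBall o (dist o x) := by
    intro k
    rw [mem_closedBall, dist_comm]
    exact hanti (Nat.zero_le k)
  obtain ⟨y, -, φ, hφ, hy⟩ := (isCompact_closedBall o (dist o x)).tendsto_subseq hmem
  have h1 : dist o y = ρ :=
    tendsto_nhds_unique (tendsto_const_nhds.dist hy) (hlim.comp hφ.tendsto_atTop)
  have h2 : dist o (f y) = ρ := by
    have h3 : Tendsto (fun k : ℕ => dist o (f^[φ k + 1] x)) atTop (𝓝 (dist o (f y))) := by
      have h4 : Tendsto (fun k : ℕ => f (f^[φ k] x)) atTop (𝓝 (f y)) :=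
        (hf.tendsto y).comp hy
      have h5 := (tendsto_const_nhds (x := o)).dist h4
      refine h5.congr fun k => ?_
      rw [Function.iterate_succ_apply']
    have h6 : Tendsto (fun k : ℕ => φ k + 1) atTop atTop :=
      tendsto_atTop_mono (fun k => Nat.le_succ (φ k)) hφ.tendsto_atTop
    exact tendsto_nhds_unique h3 (hlim.comp h6)
  have h7 : R ≤ ρ := le_ciInf fun k => (hR k).le
  have h8 := h y (h1 ▸ h7)
  rw [h1, h2] at h8
  exact lt_irrefl _ h8

variable {E : Type*} [NormedAddCommGroup E] [NormedSpace ℂ E] [FiniteDimensional ℂ E]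
  {M : Type*} [MetricSpace M] [ChartedSpace E M]
  [IsManifold 𝓘(ℂ, E) 1 M] [IsManifold 𝓘(ℝ, E) ∞ M]
  [RiemannianBundle (fun x : M => TangentSpace 𝓘(ℝ, E) x)]
  [IsContMDiffRiemannianBundle 𝓘(ℝ, E) ∞ E (fun x : M => TangentSpace 𝓘(ℝ, E) x)]
  [IsRiemannianManifold 𝓘(ℝ, E) M]

/-- the integrated Lipschitz bound -/
theorem dist_le_integral_of_mfderiv [ProperSpace M] [Nontrivial E] {f : M → M}
    (hf : ContMDiff 𝓘(ℝ, E) 𝓘(ℝ, E) 1 f) {o : M} {l : ℝ → ℝ} (hl : Continuous l)
    (hd : ∀ (x : M) (v : TangentSpace 𝓘(ℝ, E) x),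
      ‖(mfderiv 𝓘(ℝ, E) 𝓘(ℝ, E) f x v : TangentSpace 𝓘(ℝ, E) (f x))‖ ≤ l (dist o x) * ‖v‖)
    (x : M) : dist (f o) (f x) ≤ ∫ s in (0 : ℝ)..dist o x, l s := by
  have hmid := fun x y s h1 h2 => exists_mid (approxMid_of_riemannian E M) x y s h1 h2
  have hl0 : ∀ z : M, 0 ≤ l (dist o z) := by
    intro z
    have hne : ∃ w : TangentSpace 𝓘(ℝ, E) z, w ≠ 0 := exists_ne (0 : E)
    obtain ⟨w, hw⟩ := hne
    have h1 := hd z w
    have h2 : 0 < ‖w‖ := norm_pos_iff.2 hw
    have h3 := (norm_nonneg (mfderiv 𝓘(ℝ, E) 𝓘(ℝ, E) f z w : TangentSpace 𝓘(ℝ, E) (f z))).trans h1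
    exact nonneg_of_mul_nonneg_left h3 h2
  refine Vale.P253.H836.dist_le_integral hmid hl (r := dist o x) (fun z _ ε hε => ?_) le_rfl
  obtain ⟨δ, hδ, hδl⟩ := Metric.continuousAt_iff.1 (hl.continuousAt (x := dist o z)) ε hε
  refine ⟨δ, hδ, fun y _ hzy => ?_⟩
  refine H502.dist_le_on_mul (L := l (dist o z) + ε) (by have := hl0 z; linarith)
    (isOpen_ball (x := z) (ε := δ)) hf.contMDiffOn (fun w hw v => ?_) Subset.rfl hzy
  have h1 : dist (dist o w) (dist o z) < δ := by
    rw [mem_ball] at hw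
    refine lt_of_le_of_lt ?_ hw
    rw [Real.dist_eq, dist_comm o w, dist_comm o z]
    exact abs_dist_sub_le w z o
  have h2 := hδl h1
  rw [Real.dist_eq] at h2
  have h3 := (le_abs_self _).trans h2.le
  exact (hd w v).trans (mul_le_mul_of_nonneg_right (by linarith) (norm_nonneg _))

/-- **Theorem R, (6)** -/
theorem slow_meet [CompleteSpace M] [NoncompactSpace M] [ConnectedSpace M] {f : M → M}
    (hf : MDifferentiable 𝓘(ℂ, E) 𝓘(ℂ, E) f) {o : M} {l : ℝ → ℝ} (hl : Continuous l)
    (hd : ∀ (x : M) (v : TangentSpace 𝓘(ℝ, E) x),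
      ‖(mfderiv 𝓘(ℝ, E) 𝓘(ℝ, E) f x v : TangentSpace 𝓘(ℝ, E) (f x))‖ ≤ l (dist o x) * ‖v‖)
    {R : ℝ} (hR : ∀ r ≥ R, dist o (f o) + ∫ s in (0 : ℝ)..r, l s < r) :
    ∃ K : Set M, IsCompact K ∧ ∀ x, ∃ k : ℕ, f^[k] x ∈ K := by
  have hprop : ProperSpace M := properSpace_riemannian E M
  have hnt : Nontrivial E := by
    by_contra hcon
    rw [not_nontrivial_iff_subsingleton] at hcon
    have h1 : DiscreteTopology M := by
      rw [discreteTopology_iff_isOpen_singleton]
      intro x
      have h2 : ({x} : Set M) = (chartAt E x).source := by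
        refine Subset.antisymm (singleton_subset_iff.2 (mem_chart_source E x)) fun y hy => ?_
        exact (chartAt E x).injOn hy (mem_chart_source E x) (Subsingleton.elim _ _)
      rw [h2]
      exact (chartAt E x).open_source
    have h2 : Subsingleton M := PreconnectedSpace.trivial_of_discrete
    have h3 : Finite M := inferInstance
    exact noncompact_univ M isCompact_univ
  refine ⟨closedBall o R, isCompact_closedBall o R, meet_of_dist_lt hf.continuous fun x hx => ?_⟩
  have h1 := dist_le_integral_of_mfderiv ((H502.contMDiff_real hf).of_le (by simp)) hl hd x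
  have h2 := hR _ hx
  have h3 := dist_triangle o (f o) (f x)
  linarith

end Vale.Agent.P253.H661
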