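import Vale.Agent.P253.H502.ZFlow
import Vale.Agent.P253.H502.LipMul
import Vale.Agent.P253.H836.Chain
import Vale.Agent.P253.H51.OrbR
import Vale.Agent.P253.H89.ZZero

/-!
P253: holomorphic vector fields `W` with `g(∇_a W, a) ≤ - k(dist o x) g(a,a)`, where
`∫_0^r k > |W o|` for all large `r`, are dissipative.
-/

open scoped Manifold ContDiff Topology Bundle
open Set Metric Complex Filter Bundle IsManifold Manifold Vale.Agent.P253.Mfd

set_option maxSynthPendingDepth 3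
set_option linter.unusedSectionVars false

noncomputable section

namespace Vale.Agent.P253.H661

open Vale.Agent.P253.R2 Vale.Agent.P253.H595 Vale.Agent.P253.H502

section flat

variable {E : Type*} [NormedAddCommGroup E] [NormedSpace ℂ E] [FiniteDimensional ℂ E]

/-- exponential decay of transported vectors -/
theorem energy_exp {G : E → E →L[ℝ] E →L[ℝ] ℝ} {v : E → E} {U : Set E} (h : LocalKahler G U)
    {κ : ℝ} {H : ℝ → E → E} {δ : ℝ} {z : E} {t : ℝ} (ht : t ∈ Ioo (-δ) δ) (ht0 : 0 ≤ t)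
    (hS : ∀ s ∈ Icc 0 t, ∀ a, Sfun G v (H s z) a ≤ -κ * G (H s z) a a)
    (hH : ∀ t ∈ Ioo (-δ) δ, H t z ∈ U ∧ HasDerivAt (fun s => H s z) (v (H t z)) t)
    (hvar : ∀ a : E, ∀ t ∈ Ioo (-δ) δ,
      HasDerivAt (fun s => fderiv ℝ (H s) z a) (fderiv ℝ v (H t z) (fderiv ℝ (H t) z a)) t)
    (a : E) :
    G (H t z) (fderiv ℝ (H t) z a) (fderiv ℝ (H t) z a) ≤
      Real.exp (-(2 * κ * t)) * G (H 0 z) (fderiv ℝ (H 0) z a) (fderiv ℝ (H 0) z a) := by
  have hδ : 0 < δ := by linarith [ht.1, ht.2]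
  have hsub : ∀ s ∈ Icc 0 t, s ∈ Ioo (-δ) δ := fun s hs =>
    ⟨by linarith [hs.1], hs.2.trans_lt ht.2⟩
  set A : ℝ → ℝ := fun s => G (H s z) (fderiv ℝ (H s) z a) (fderiv ℝ (H s) z a) with hA
  have hder : ∀ s ∈ Icc 0 t, HasDerivAt A (2 * Sfun G v (H s z) (fderiv ℝ (H s) z a)) s := by
    intro s hs
    have hs' := hsub s hs
    exact hasDerivAt_energy (G := G) (v := v) (z := H s z) (h.differentiableAt (hH s hs').1)
      (fun v w => h.symm _ (hH s hs').1 v w) (hH s hs').2 rfl (hvar a s hs') rfl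
  have hder2 : ∀ s ∈ Icc 0 t, HasDerivAt (fun s => Real.exp (2 * κ * s) * A s)
      (Real.exp (2 * κ * s) * (2 * κ) * A s +
        Real.exp (2 * κ * s) * (2 * Sfun G v (H s z) (fderiv ℝ (H s) z a))) s := by
    intro s hs
    have h1 : HasDerivAt (fun s : ℝ => Real.exp (2 * κ * s)) (Real.exp (2 * κ * s) * (2 * κ)) s := by
      have h2 : HasDerivAt (fun s : ℝ => 2 * κ * s) (2 * κ) s := by
        simpa using (hasDerivAt_id s).const_mul (2 * κ)
      exact h2.exp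
    exact h1.mul (hder s hs)
  have hmono : AntitoneOn (fun s => Real.exp (2 * κ * s) * A s) (Icc 0 t) := by
    apply antitoneOn_of_deriv_nonpos (convex_Icc 0 t)
    · exact fun s hs => (hder2 s hs).continuousAt.continuousWithinAt
    · intro s hs
      exact (hder2 s (interior_subset hs)).differentiableAt.differentiableWithinAt
    · intro s hs
      have hs' := interior_subset hs
      rw [(hder2 s hs').deriv]
      have h1 := hS s hs' (fderiv ℝ (H s) z a)
      have h2 : 0 < Real.exp (2 * κ * s) := Real.exp_pos _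
      have h3 : Real.exp (2 * κ * s) * (2 * κ) * A s +
        Real.exp (2 * κ * s) * (2 * Sfun G v (H s z) (fderiv ℝ (H s) z a)) =
        2 * Real.exp (2 * κ * s) * (κ * A s + Sfun G v (H s z) (fderiv ℝ (H s) z a)) := by ring
      rw [h3]
      have h4 : κ * A s + Sfun G v (H s z) (fderiv ℝ (H s) z a) ≤ 0 := by
        have : A s = G (H s z) (fderiv ℝ (H s) z a) (fderiv ℝ (H s) z a) := rfl
        rw [this]
        linarith
      exact mul_nonpos_of_nonneg_of_nonpos (by positivity) h4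
  have h5 := hmono (left_mem_Icc.2 ht0) (right_mem_Icc.2 ht0) ht0
  simp only [mul_zero, Real.exp_zero, one_mul] at h5
  have h6 : A t = Real.exp (-(2 * κ * t)) * (Real.exp (2 * κ * t) * A t) := by
    rw [← mul_assoc, ← Real.exp_add, neg_add_cancel, Real.exp_zero, one_mul]
  change A t ≤ Real.exp (-(2 * κ * t)) * A 0
  rw [h6]
  exact mul_le_mul_of_nonneg_left h5 (Real.exp_pos _).le

end flat

variable {E : Type*} [NormedAddCommGroup E] [NormedSpace ℂ E] [FiniteDimensional ℂ E]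
  {M : Type*} [MetricSpace M] [ChartedSpace E M]
  [IsManifold 𝓘(ℂ, E) 1 M] [IsManifold 𝓘(ℝ, E) ∞ M]
  {Z : (x : M) → TangentSpace 𝓘(ℂ, E) x}

theorem dissipative_of_step [ProperSpace M] (hZ : IsHolField Z) {o : M} {R : ℝ}
    (h : ∀ x, R < dist o x → ∀ᶠ t : ℝ in 𝓝[>] 0,
      dist o (FF (IntAt Z) t x) < dist o x) : H22.IsDissipativeField E Z := by
  have hLF := locFlow_of_field hZ
  refine ⟨fun x => dist o x, closedBall o R, by fun_prop, fun c => ?_, isCompact_closedBall o R,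
    fun x hx f hf0 hf => ?_⟩
  · have h1 : {x : M | dist o x ≤ c} = closedBall o c := by
      ext x
      rw [mem_closedBall, dist_comm]
      rfl
    rw [h1]
    exact isCompact_closedBall o c
  · rw [mem_closedBall, dist_comm, not_le] at hx
    obtain ⟨r, hr, hball⟩ := Metric.eventually_nhds_iff_ball.1 hf
    have hst : StarInt (IntAt Z) (ball (0:ℂ) r) f x :=
      ⟨isOpen_ball, (convex_ball 0 r).starConvex (mem_ball_self hr), mem_ball_self hr, hball, hf0⟩
    filter_upwards [h x hx, Ioo_mem_nhdsGT hr] with t ht ht'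
    have hmem : ((t:ℝ):ℂ) ∈ ball (0:ℂ) r := by
      rw [mem_ball_zero_iff, norm_real, Real.norm_eq_abs, abs_of_pos ht'.1]
      exact ht'.2
    have h2 := hst.eq hLF hmem
    rw [h2] at ht
    exact ht

variable [RiemannianBundle (fun x : M => TangentSpace 𝓘(ℝ, E) x)]
  [IsContMDiffRiemannianBundle 𝓘(ℝ, E) ∞ E (fun x : M => TangentSpace 𝓘(ℝ, E) x)]

variable (E) in
/-- `g(∇_a Z, a) ≤ - k (dist o x) g(a, a)` -/
def RadNeg (Z : (x : M) → TangentSpace 𝓘(ℂ, E) x) (o : M) (k : ℝ → ℝ) : Prop :=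
  ∀ e ∈ atlas E M, ∀ z ∈ e.target, ∀ a,
    Sfun (chartG e) (fun y => comps Z e (e.symm y)) z a ≤
      -k (dist o (e.symm z)) * chartG e z a a

theorem local_stepK (hK : IsKahler E M) (hZ : IsHolField Z) {o : M} {k : ℝ → ℝ}
    (hk : Continuous k) (hS : RadNeg E Z o k) {ε : ℝ} (hε : 0 < ε) (x₀ : M) :
    ∃ δ > 0, ∃ V ∈ 𝓝 x₀, ∀ x ∈ V, ∀ t : ℝ, 0 ≤ t → t < δ →
      ((t:ℂ), x) ∈ DF (IntAt Z) ∧ ∀ w : E,
        innerAt (E := E) (FF (IntAt Z) t x) (dM (FF (IntAt Z) t) x w) (dM (FF (IntAt Z) t) x w) ≤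
          Real.exp (-(2 * (k (dist o x) - ε) * t)) * innerAt (E := E) x w w := by
  have hLF := locFlow_of_field hZ
  have he : chartAt E x₀ ∈ maximalAtlas 𝓘(ℂ, E) 1 M := chart_mem_maximalAtlas x₀
  set e := chartAt E x₀ with hedef
  have her := mem_maximalAtlas_real he
  have hx₀ : x₀ ∈ e.source := mem_chart_source E x₀
  have hLK := localKahler_chartG hK he
  obtain ⟨δ₀, hδ₀, r, hr, hrU, Hc, h0, hH₀, hHd₀, hvar₀⟩ := exists_flow_varC e.open_target
    (hZ e he) (e.map_source hx₀)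
  -- continuity of the flow
  have hcont : ∀ᶠ q : ℂ × M in 𝓝 ((0:ℂ), x₀),
      k (dist o q.2) - ε < k (dist o (FF (IntAt Z) q.1 q.2)) := by
    have h1 : ContinuousAt (fun q : ℂ × M => FF (IntAt Z) q.1 q.2) ((0:ℂ), x₀) :=
      (mdiff_FF hLF (zero_mem_DF hLF x₀)).continuousAt
    have h2 : ContinuousAt (fun q : ℂ × M => k (dist o q.2) - ε -
        k (dist o (FF (IntAt Z) q.1 q.2))) ((0:ℂ), x₀) := by
      refine ContinuousAt.sub ?_ ?_
      · exact ((hk.comp (continuous_const.dist continuous_snd)).sub continuous_const).continuousAt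
      · exact ContinuousAt.comp (g := fun y : M => k (dist o y))
          (f := fun q : ℂ × M => FF (IntAt Z) q.1 q.2)
          (hk.comp (continuous_const.dist continuous_id)).continuousAt h1
    have h3 : k (dist o x₀) - ε - k (dist o (FF (IntAt Z) (0:ℂ) x₀)) < 0 := by
      rw [FF_zero hLF]
      linarith
    filter_upwards [h2.eventually (gt_mem_nhds h3)] with q hq
    linarith
  obtain ⟨P1, hP1, P2, hP2, hP⟩ := Filter.eventually_prod_iff.1 (nhds_prod_eq (X := ℂ) (Y := M) ▸ hcont)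
  obtain ⟨δ₁, hδ₁, hδP⟩ := Metric.eventually_nhds_iff_ball.1 hP1
  set δ : ℝ := min δ₀ δ₁ with hδdef
  have hδ : 0 < δ := lt_min hδ₀ hδ₁
  have hH : ∀ z ∈ ball (e x₀) r, ∀ ζ ∈ ball (0:ℂ) δ, Hc ζ z ∈ e.target ∧
      HasDerivAt (fun ζ => Hc ζ z) ((fun y => comps Z e (e.symm y)) (Hc ζ z)) ζ :=
    fun z hz ζ hζ => hH₀ z hz ζ (ball_subset_ball (min_le_left _ _) hζ)
  have hIoo : ∀ t ∈ Ioo (-δ) δ, t ∈ Ioo (-δ₀) δ₀ := fun t ht =>
    ⟨by linarith [ht.1, min_le_left δ₀ δ₁], ht.2.trans_le (min_le_left _ _)⟩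
  have hHd : ∀ t ∈ Ioo (-δ) δ, DifferentiableOn ℂ (Hc (t:ℝ)) (ball (e x₀) r) :=
    fun t ht => hHd₀ t (hIoo t ht)
  have hvar : ∀ z ∈ ball (e x₀) r, ∀ a : E, ∀ t ∈ Ioo (-δ) δ,
        HasDerivAt (fun s : ℝ => fderiv ℝ (Hc s) z a)
          (fderiv ℝ (fun y => comps Z e (e.symm y)) (Hc t z) (fderiv ℝ (Hc t) z a)) t :=
    fun z hz a t ht => hvar₀ z hz a t (hIoo t ht)
  set V := e.source ∩ e ⁻¹' (ball (e x₀) r) with hV
  have hVo : IsOpen V := e.continuousOn.isOpen_inter_preimage e.open_source isOpen_ball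
  have hst : ∀ x ∈ V, StarInt (IntAt Z) (ball (0:ℂ) δ) (fun ζ => e.symm (Hc ζ (e x))) x := by
    intro x hx
    refine ⟨isOpen_ball, (convex_ball 0 δ).starConvex (mem_ball_self hδ), mem_ball_self hδ,
      fun ζ hζ => ?_, ?_⟩
    · exact intAt_of_hasDerivAt he (hH _ hx.2 ζ hζ).1 (hH _ hx.2 ζ hζ).2
    · simp only [h0 (e x) hx.2]
      exact e.left_inv hx.1
  have hball : ∀ t ∈ Ioo (-δ) δ, ((t:ℝ):ℂ) ∈ ball (0:ℂ) δ := by
    intro t ht
    rw [mem_ball_zero_iff, norm_real, Real.norm_eq_abs]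
    exact abs_lt.2 ht
  refine ⟨δ, hδ, V ∩ {x | P2 x}, Filter.inter_mem (hVo.mem_nhds ⟨hx₀, mem_ball_self hr⟩) hP2,
    fun x hxx t ht0 htδ => ?_⟩
  have hx : x ∈ V := hxx.1
  have ht' : t ∈ Ioo (-δ) δ := ⟨by linarith, htδ⟩
  have h0' : (0:ℝ) ∈ Ioo (-δ) δ := ⟨by linarith only [hδ], hδ⟩
  have hform : ∀ s ∈ Ioo (-δ) δ, ∀ x ∈ V, FF (IntAt Z) s x = e.symm (Hc s (e x)) := fun s hs x hx =>
    (hst x hx).eq hLF (hball s hs)
  refine ⟨(hst x hx).mem_DF (hball t ht'), fun w => ?_⟩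
  have h1 : ∀ s ∈ Ioo (-δ) δ, Hc (s:ℝ) (e x) ∈ e.target ∧
      HasDerivAt (fun s : ℝ => Hc s (e x)) ((fun y => comps Z e (e.symm y)) (Hc s (e x))) s :=
    fun s hs => ⟨(hH _ hx.2 _ (hball s hs)).1, hasDerivAt_real (hH _ hx.2 _ (hball s hs)).2⟩
  have htgt : Hc (t:ℝ) (e x) ∈ e.target := (h1 t ht').1
  -- the differential of the flow in the chart
  have hmd : HasMFDerivAt 𝓘(ℝ, E) 𝓘(ℝ, E) e x (dchart e x) :=
    (((contMDiffOn_of_mem_maximalAtlas her).contMDiffAt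
      (e.open_source.mem_nhds hx.1)).mdifferentiableAt (by simp)).hasMFDerivAt
  have hHf : HasFDerivAt (Hc (t:ℝ)) (fderiv ℝ (Hc (t:ℝ)) (e x)) (e x) := by
    have h2 : DifferentiableAt ℂ (Hc (t:ℝ)) (e x) :=
      ((hHd t ht') (e x) hx.2).differentiableAt (isOpen_ball.mem_nhds hx.2)
    exact (h2.hasFDerivAt.restrictScalars ℝ).differentiableAt.hasFDerivAt
  have hms : HasMFDerivAt 𝓘(ℝ, E) 𝓘(ℝ, E) e.symm (Hc (t:ℝ) (e x))
      (mfderiv 𝓘(ℝ, E) 𝓘(ℝ, E) e.symm (Hc (t:ℝ) (e x))) :=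
    (((contMDiffOn_symm_of_mem_maximalAtlas her).contMDiffAt
      (e.open_target.mem_nhds htgt)).mdifferentiableAt (by simp)).hasMFDerivAt
  let L : E →L[ℝ] E :=
    (dsymm e (Hc (t:ℝ) (e x))).comp ((fderiv ℝ (Hc (t:ℝ)) (e x)).comp (dchart e x))
  have hcomp1 := HasMFDerivAt.comp x (g := Hc (t:ℝ)) (f := e) hHf.hasMFDerivAt hmd
  have hcomp : HasMFDerivAt 𝓘(ℝ, E) 𝓘(ℝ, E) (e.symm ∘ (Hc (t:ℝ) ∘ e)) x L :=
    HasMFDerivAt.comp x (g := e.symm) (f := Hc (t:ℝ) ∘ e) hms hcomp1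
  have hev : FF (IntAt Z) t =ᶠ[𝓝 x] (e.symm ∘ (Hc (t:ℝ) ∘ e)) := by
    filter_upwards [hVo.mem_nhds hx] with y hy
    exact hform t ht' y hy
  have hdM : dM (FF (IntAt Z) t) x w =
      dsymm e (Hc (t:ℝ) (e x)) (fderiv ℝ (Hc (t:ℝ)) (e x) (dchart e x w)) := by
    have h2 := (hcomp.congr_of_eventuallyEq hev).mfderiv
    exact congrArg (fun T : E →L[ℝ] E => T w) h2
  have hmono := energy_exp hLK (κ := k (dist o x) - ε) (H := fun s : ℝ => Hc s) ht' ht0
    (fun s hs a => by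
      have hs' : s ∈ Ioo (-δ) δ := ⟨by linarith [hs.1], hs.2.trans_lt htδ⟩
      have h2 := hS e (chart_mem_atlas E x₀) (Hc (s:ℝ) (e x)) (h1 s hs').1 a
      refine h2.trans ?_
      have h3 : k (dist o x) - ε < k (dist o (e.symm (Hc (s:ℝ) (e x)))) := by
        have h4 := hP (hδP (s:ℂ) (by
          have := hball s hs'
          exact ball_subset_ball (min_le_right _ _) this)) hxx.2
        simp only at h4
        rwa [hform s hs' x hx] at h4
      have h5 : 0 ≤ chartG e (Hc (s:ℝ) (e x)) a a := by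
        rw [chartG_apply]
        exact real_inner_self_nonneg
      nlinarith)
    h1 (fun a t ht => hvar (e x) hx.2 a t ht) (dchart e x w)
  have hH0 : fderiv ℝ (Hc ((0:ℝ):ℂ)) (e x) (dchart e x w) = dchart e x w := by
    have h2 : Hc ((0:ℝ):ℂ) =ᶠ[𝓝 (e x)] id := by
      filter_upwards [isOpen_ball.mem_nhds hx.2] with z hz
      rw [ofReal_zero]
      exact h0 z hz
    rw [h2.fderiv_eq, fderiv_id]
    rfl
  have hH00 : Hc ((0:ℝ):ℂ) (e x) = e x := by rw [ofReal_zero]; exact h0 _ hx.2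
  rw [hH0, hH00, innerAt_chart he hx.1] at hmono
  rw [hdM, hform t ht' x hx]
  exact hmono

/-- a common time on a compact set -/
theorem uniform_stepK (hK : IsKahler E M) (hZ : IsHolField Z) {o : M} {k : ℝ → ℝ}
    (hk : Continuous k) (hS : RadNeg E Z o k) {ε : ℝ} (hε : 0 < ε) {C : Set M}
    (hC : IsCompact C) :
    ∃ δ > 0, ∀ x ∈ C, ∀ t : ℝ, 0 ≤ t → t < δ →
      ((t:ℂ), x) ∈ DF (IntAt Z) ∧ ∀ w : E,
        innerAt (E := E) (FF (IntAt Z) t x) (dM (FF (IntAt Z) t) x w) (dM (FF (IntAt Z) t) x w) ≤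
          Real.exp (-(2 * (k (dist o x) - ε) * t)) * innerAt (E := E) x w w := by
  refine hC.induction_on (p := fun C => ∃ δ > 0, ∀ x ∈ C, ∀ t : ℝ, 0 ≤ t → t < δ →
      ((t:ℂ), x) ∈ DF (IntAt Z) ∧ ∀ w : E,
        innerAt (E := E) (FF (IntAt Z) t x) (dM (FF (IntAt Z) t) x w) (dM (FF (IntAt Z) t) x w) ≤
          Real.exp (-(2 * (k (dist o x) - ε) * t)) * innerAt (E := E) x w w) ?_ ?_ ?_ ?_
  · exact ⟨1, one_pos, fun x hx => absurd hx (notMem_empty x)⟩
  · rintro s t hst ⟨δ, hδ, h⟩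
    exact ⟨δ, hδ, fun x hx => h x (hst hx)⟩
  · rintro s t ⟨δ, hδ, h⟩ ⟨δ', hδ', h'⟩
    refine ⟨min δ δ', lt_min hδ hδ', fun x hx τ hτ0 hτ => ?_⟩
    rcases hx with hx | hx
    · exact h x hx τ hτ0 (hτ.trans_le (min_le_left _ _))
    · exact h' x hx τ hτ0 (hτ.trans_le (min_le_right _ _))
  · intro x _
    obtain ⟨δ, hδ, V, hV, h⟩ := local_stepK hK hZ hk hS hε x
    exact ⟨V, mem_nhdsWithin_of_mem_nhds hV, δ, hδ, h⟩

variable [IsRiemannianManifold 𝓘(ℝ, E) M]

/-- the integrated bound for the local flow -/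
theorem dist_FF_le_integral [ProperSpace M] (hK : IsKahler E M) (hZ : IsHolField Z) {o : M}
    {k : ℝ → ℝ} (hk : Continuous k) (hS : RadNeg E Z o k) {ε : ℝ} (hε : 0 < ε) (x : M) :
    ∃ δ > 0, ∀ t : ℝ, 0 ≤ t → t < δ →
      dist (FF (IntAt Z) t o) (FF (IntAt Z) t x) ≤
        ∫ s in (0 : ℝ)..dist o x, Real.exp (-((k s - ε) * t)) := by
  obtain ⟨δ, hδ, h⟩ := uniform_stepK hK hZ hk hS hε (isCompact_closedBall o (dist o x + 1))
  refine ⟨δ, hδ, fun t ht0 ht => ?_⟩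
  have hmid := fun x y s h1 h2 => exists_mid (approxMid_of_riemannian E M) x y s h1 h2
  have hl : Continuous fun s : ℝ => Real.exp (-((k s - ε) * t)) := by fun_prop
  refine Vale.P253.H836.dist_le_integral hmid (f := FF (IntAt Z) (t:ℂ))
    (l := fun s => Real.exp (-((k s - ε) * t))) hl (r := dist o x) (fun z hz η hη => ?_) le_rfl
  obtain ⟨δ', hδ', hδl⟩ := Metric.continuousAt_iff.1 (hl.continuousAt (x := dist o z)) η hη
  have hsub : ball z (min δ' 1) ⊆ closedBall o (dist o x + 1) := by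
    intro w hw
    rw [mem_ball] at hw
    rw [mem_closedBall]
    have h1 := dist_triangle w z o
    rw [dist_comm z o] at h1
    have h2 := hw.trans_le (min_le_right _ _)
    linarith
  refine ⟨min δ' 1, lt_min hδ' one_pos, fun y _ hzy => ?_⟩
  refine H502.dist_le_on_mul (L := Real.exp (-((k (dist o z) - ε) * t)) + η)
    (by have := Real.exp_pos (-((k (dist o z) - ε) * t)); linarith)
    (isOpen_ball (x := z) (ε := min δ' 1))
    (fun w hw => ((contMDiffAt_FF hZ (h w (hsub hw) t ht0 ht).1).of_le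
      (by simp)).contMDiffWithinAt) (fun w hw v => ?_) Subset.rfl hzy
  have h1 : dist (dist o w) (dist o z) < δ' := by
    rw [mem_ball] at hw
    refine lt_of_le_of_lt ?_ (hw.trans_le (min_le_left _ _))
    rw [Real.dist_eq, dist_comm o w, dist_comm o z]
    exact abs_dist_sub_le w z o
  have h2 := hδl h1
  rw [Real.dist_eq] at h2
  have h3 := (le_abs_self _).trans h2.le
  have h4 := (h w (hsub hw) t ht0 ht).2 v
  have h5 : ‖(mfderiv 𝓘(ℝ, E) 𝓘(ℝ, E) (FF (IntAt Z) (t:ℂ)) w v :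
      TangentSpace 𝓘(ℝ, E) (FF (IntAt Z) (t:ℂ) w))‖ ≤
      Real.exp (-((k (dist o w) - ε) * t)) * ‖v‖ := by
    rw [norm_eq_sqrt_real_inner, norm_eq_sqrt_real_inner v]
    have h6 : Real.exp (-((k (dist o w) - ε) * t)) =
        √(Real.exp (-(2 * (k (dist o w) - ε) * t))) := by
      rw [show -(2 * (k (dist o w) - ε) * t) =
        -((k (dist o w) - ε) * t) + -((k (dist o w) - ε) * t) by ring, Real.exp_add,
        Real.sqrt_mul_self (Real.exp_pos _).le]
    rw [h6, ← Real.sqrt_mul (Real.exp_pos _).le]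
    exact Real.sqrt_le_sqrt h4
  exact h5.trans (mul_le_mul_of_nonneg_right (by linarith) (norm_nonneg _))

/-- **Theorem R, (7)** -/
theorem isDissipative_of_radNeg [ProperSpace M] (hK : IsKahler E M) (hZ : IsHolField Z) {o : M}
    {k : ℝ → ℝ} (hk : Continuous k) (hS : RadNeg E Z o k) {R : ℝ}
    (hR : ∀ r ≥ R, fnorm E Z o < ∫ s in (0 : ℝ)..r, k s) : H22.IsDissipativeField E Z := by
  have hLF := locFlow_of_field hZ
  refine dissipative_of_step hZ (o := o) (R := R) fun x hx => ?_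
  set d : ℝ := dist o x with hd
  have hd0 : 0 ≤ d := dist_nonneg
  set I : ℝ := (∫ s in (0 : ℝ)..d, k s) - fnorm E Z o with hI
  have hI0 : 0 < I := by
    have := hR d hx.le
    linarith
  set ε : ℝ := I / (4 * (1 + d)) with hε
  have hε0 : 0 < ε := by positivity
  have hεd : ε * (1 + d) = I / 4 := by
    rw [hε]
    field_simp
  obtain ⟨δ₁, hδ₁, h1⟩ := dist_FF_le_integral hK hZ hk hS hε0 x
  -- the speed at `o`
  have hsp : ∀ᶠ r : ℝ in 𝓝 0, ((r:ℂ), o) ∈ DF (IntAt Z) ∧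
      fnorm E Z (FF (IntAt Z) (r:ℂ) o) < fnorm E Z o + ε := by
    have hcF : ContinuousAt (fun r : ℝ => FF (IntAt Z) (r:ℂ) o) 0 := by
      have h2 : ContinuousAt (fun w : ℂ => FF (IntAt Z) w o) ((0:ℝ) : ℂ) := by
        rw [ofReal_zero]
        exact (hLF.mdiff (FF_int hLF (zero_mem_DF hLF o))).continuousAt
      exact ContinuousAt.comp (g := fun w : ℂ => FF (IntAt Z) w o) h2
        continuous_ofReal.continuousAt
    have h3 : ContinuousAt (fun r : ℝ => fnorm E Z (FF (IntAt Z) (r:ℂ) o)) 0 :=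
      ContinuousAt.comp (g := fnorm E Z) (H89.continuous_fnorm hZ).continuousAt hcF
    have h4 : fnorm E Z (FF (IntAt Z) ((0:ℝ):ℂ) o) < fnorm E Z o + ε := by
      rw [ofReal_zero, FF_zero hLF]
      linarith
    have h5 : IsOpen {r : ℝ | ((r:ℂ), o) ∈ DF (IntAt Z)} :=
      (isOpen_DF hLF).preimage (by fun_prop : Continuous fun r : ℝ => ((r:ℂ), o))
    have h6 : (0:ℝ) ∈ {r : ℝ | ((r:ℂ), o) ∈ DF (IntAt Z)} := by
      change (((0:ℝ):ℂ), o) ∈ DF (IntAt Z)
      rw [ofReal_zero]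
      exact zero_mem_DF hLF o
    filter_upwards [h5.mem_nhds h6, h3.eventually (gt_mem_nhds h4)] with r hr1 hr2
      using ⟨hr1, hr2⟩
  obtain ⟨δ₂, hδ₂, h2⟩ := Metric.eventually_nhds_iff_ball.1 hsp
  -- a bound for the weight
  obtain ⟨A, hA⟩ := (isCompact_Icc (a := (0:ℝ)) (b := d)).exists_bound_of_continuousOn
    (f := fun s => k s - ε) (by fun_prop)
  have hA0 : 0 ≤ A := (norm_nonneg _).trans (hA 0 ⟨le_rfl, hd0⟩)
  have hδ₃ : 0 < 1 / (A + 1) := by positivity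
  have hδ₄ : 0 < I / (4 * (A ^ 2 * d + 1)) := by positivity
  filter_upwards [Ioo_mem_nhdsGT (lt_min (lt_min hδ₁ hδ₂) (lt_min hδ₃ hδ₄))] with t ht
  have ht0 : 0 < t := ht.1
  have ht1 : t < δ₁ := ht.2.trans_le ((min_le_left _ _).trans (min_le_left _ _))
  have ht2 : t < δ₂ := ht.2.trans_le ((min_le_left _ _).trans (min_le_right _ _))
  have ht3 : t < 1 / (A + 1) := ht.2.trans_le ((min_le_right _ _).trans (min_le_left _ _))
  have ht4 : t < I / (4 * (A ^ 2 * d + 1)) :=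
    ht.2.trans_le ((min_le_right _ _).trans (min_le_right _ _))
  have hstep1 : dist o (FF (IntAt Z) (t:ℂ) o) ≤ (fnorm E Z o + ε) * t := by
    have hmem : ∀ r ∈ Icc (0:ℝ) t, r ∈ ball (0:ℝ) δ₂ := by
      intro r hr
      rw [mem_ball_zero_iff, Real.norm_eq_abs, abs_of_nonneg hr.1]
      exact hr.2.trans_lt ht2
    refine H51.dist_orbit_real hZ ?_ ht0.le (fun r hr => (h2 r (hmem r hr)).1)
      fun r hr => (h2 r (hmem r hr)).2.le
    have h9 : 0 ≤ fnorm E Z o := norm_nonneg _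
    exact add_nonneg h9 hε0.le
  have hstep2 : (∫ s in (0 : ℝ)..d, Real.exp (-((k s - ε) * t))) ≤
      d - t * ((∫ s in (0 : ℝ)..d, k s) - ε * d) + A ^ 2 * t ^ 2 * d := by
    have h3 : (∫ s in (0 : ℝ)..d, Real.exp (-((k s - ε) * t))) ≤
        ∫ s in (0 : ℝ)..d, (1 + ε * t + A ^ 2 * t ^ 2 - t * k s) := by
      refine intervalIntegral.integral_mono_on hd0
        ((by fun_prop : Continuous fun s : ℝ => Real.exp (-((k s - ε) * t))).intervalIntegrable _ _)
        ((by fun_prop : Continuous fun s : ℝ =>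
          (1 + ε * t + A ^ 2 * t ^ 2 - t * k s)).intervalIntegrable _ _) fun s hs => ?_
      have h4 := hA s hs
      rw [Real.norm_eq_abs] at h4
      have h5 : |-((k s - ε) * t)| ≤ A * t := by
        rw [abs_neg, abs_mul, abs_of_pos ht0]
        exact mul_le_mul_of_nonneg_right h4 ht0.le
      have h6 : A * t ≤ 1 := by
        rw [lt_div_iff₀ (by positivity)] at ht3
        nlinarith
      have h7 := (abs_le.1 (Real.abs_exp_sub_one_sub_id_le (h5.trans h6))).2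
      have h8 : (-((k s - ε) * t)) ^ 2 ≤ A ^ 2 * t ^ 2 := by
        rw [← sq_abs, ← mul_pow]
        exact pow_le_pow_left₀ (abs_nonneg _) h5 2
      linarith
    refine h3.trans (le_of_eq ?_)
    rw [intervalIntegral.integral_sub (by simp) ((hk.intervalIntegrable _ _).const_mul t),
      intervalIntegral.integral_const, intervalIntegral.integral_const_mul]
    simp only [smul_eq_mul]
    ring
  have hstep3 := h1 t ht0.le ht1
  have hstep4 := dist_triangle o (FF (IntAt Z) (t:ℂ) o) (FF (IntAt Z) (t:ℂ) x)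
  have hstep5 : A ^ 2 * t * d < I / 2 := by
    rw [lt_div_iff₀ (by positivity)] at ht4
    have : 0 ≤ A ^ 2 * t * d := by positivity
    nlinarith
  have hstep6 : dist o (FF (IntAt Z) (t:ℂ) x) ≤ d - t * (I - ε * (1 + d) - A ^ 2 * t * d) := by
    have h8 : d - t * (I - ε * (1 + d) - A ^ 2 * t * d) =
      (fnorm E Z o + ε) * t + (d - t * ((∫ s in (0 : ℝ)..d, k s) - ε * d) + A ^ 2 * t ^ 2 * d) := by
      rw [hI]
      ring
    rw [h8]
    linarith
  have hstep7 : 0 < t * (I - ε * (1 + d) - A ^ 2 * t * d) := by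
    rw [hεd]
    exact mul_pos ht0 (by linarith)
  linarith

/-- **Theorem R, (7)**, for the field `-Z` -/
theorem diss_neg [ProperSpace M] (hK : IsKahler E M) (hZ : IsHolField Z) {o : M}
    {k : ℝ → ℝ} (hk : Continuous k)
    (hS : ∀ e ∈ maximalAtlas 𝓘(ℂ, E) 1 M, ∀ z ∈ e.target, ∀ a,
      k (dist o (e.symm z)) * chartG e z a a ≤
        Sfun (chartG e) (fun y : E => comps Z e (e.symm y)) z a) {R : ℝ}
    (hR : ∀ r ≥ R, fnorm E Z o < ∫ s in (0 : ℝ)..r, k s) :
    H22.IsDissipativeField E (fun x => -(Z x)) := by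
  set Z' : (x : M) → TangentSpace 𝓘(ℂ, E) x := fun x => -(Z x) with hZ'
  have hZ'h : IsHolField Z' := by
    intro e he z hz
    have h1 := (hZ e he z hz).neg
    refine h1.congr (fun y _ => ?_) ?_
    · exact comps_neg Z e _
    · exact comps_neg Z e _
  refine isDissipative_of_radNeg hK hZ'h hk (o := o) (R := R) ?_ fun r hr => ?_
  · intro e he z hz a
    have he' : e ∈ maximalAtlas 𝓘(ℂ, E) 1 M := IsManifold.subset_maximalAtlas he
    have h1 := hS e he' z hz a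
    have h2 : (fun y : E => comps Z' e (e.symm y)) = fun y : E => -(comps Z e (e.symm y)) := by
      funext y
      exact comps_neg Z e _
    have h3 : Sfun (chartG e) (fun y : E => comps Z' e (e.symm y)) z a =
        -Sfun (chartG e) (fun y : E => comps Z e (e.symm y)) z a := by
      rw [h2]
      simp only [Sfun, fderiv_fun_neg, map_neg, neg_apply]
      ring
    rw [h3]
    linarith
  · have h1 : fnorm E Z' o = fnorm E Z o :=
      norm_neg (show TangentSpace 𝓘(ℝ, E) o from Z o)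
    rw [h1]
    exact hR r hr

end Vale.Agent.P253.H661
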