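import Vale.Agent.P253.S445.Nf7

/-!
P253: the basin of attraction of a fixed point of a biholomorphism: if all orbits converge to the
point, uniformly near the point, then the manifold is `ℂⁿ` (no condition on the differential, no
flow).
-/

open scoped Manifold ContDiff Topology Bundle
open Set Metric Complex Filter Bundle IsManifold Manifold Asymptotics Vale.Agent.P253.S445
  Vale.Agent.P253.Mfd Vale.Agent.P253.CStar

set_option maxSynthPendingDepth 3
set_option linter.unusedSectionVars false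

noncomputable section

namespace Vale.Agent.P253.H661

variable {E : Type*} [NormedAddCommGroup E] [NormedSpace ℂ E] [FiniteDimensional ℂ E]
  {M : Type*} [MetricSpace M] [ChartedSpace E M] [IsManifold 𝓘(ℂ, E) 1 M]
  {p : M}

/-- a self-map in the chart around `p` -/
def RA (E : Type*) [NormedAddCommGroup E] {M : Type*} [TopologicalSpace M]
    [ChartedSpace E M] (g : M → M) (p : M) (u : E) : E :=
  chartAt E p (g ((chartAt E p).symm (u + chartAt E p p))) - chartAt E p p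

theorem RA_zero {g : M → M} (hp : g p = p) : RA E g p 0 = 0 := by
  simp only [RA, zero_add]
  rw [(chartAt E p).left_inv (mem_chart_source E p), hp, sub_self]

theorem differentiableAt_RA {g : M → M} (hg : ContMDiff 𝓘(ℂ, E) 𝓘(ℂ, E) 1 g) {u : E}
    (hu : u + chartAt E p p ∈ (chartAt E p).target)
    (hgu : g ((chartAt E p).symm (u + chartAt E p p)) ∈ (chartAt E p).source) :
    DifferentiableAt ℂ (RA E g p) u := by
  set e := chartAt E p with he
  have hem : e ∈ maximalAtlas 𝓘(ℂ, E) 1 M := chart_mem_maximalAtlas p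
  have h1 : ContMDiffAt 𝓘(ℂ, E) 𝓘(ℂ, E) 1 e.symm (u + e p) :=
    (contMDiffOn_symm_of_mem_maximalAtlas hem).contMDiffAt (e.open_target.mem_nhds hu)
  have h2 : ContMDiffAt 𝓘(ℂ, E) 𝓘(ℂ, E) 1 (fun w : E => w + e p) u := by
    have h : ContDiffAt ℂ 1 (fun w : E => w + e p) u := contDiffAt_id.add contDiffAt_const
    exact h.contMDiffAt
  have h3 : ContMDiffAt 𝓘(ℂ, E) 𝓘(ℂ, E) 1 (fun w : E => e.symm (w + e p)) u :=
    ContMDiffAt.comp u (g := e.symm) h1 h2
  have h4 : ContMDiffAt 𝓘(ℂ, E) 𝓘(ℂ, E) 1 (fun w : E => g (e.symm (w + e p))) u :=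
    ContMDiffAt.comp u (g := g) (hg _) h3
  have h5 : ContMDiffAt 𝓘(ℂ, E) 𝓘(ℂ, E) 1 e (g (e.symm (u + e p))) :=
    (contMDiffOn_of_mem_maximalAtlas hem).contMDiffAt (e.open_source.mem_nhds hgu)
  have h6 : ContMDiffAt 𝓘(ℂ, E) 𝓘(ℂ, E) 1 (fun w : E => e (g (e.symm (w + e p)))) u :=
    ContMDiffAt.comp u (g := e) h5 h4
  have h7 : ContDiffAt ℂ 1 (fun w : E => e (g (e.symm (w + e p)))) u := h6.contDiffAt
  exact (h7.differentiableAt (by simp)).sub_const _

theorem tendsto_shift : Tendsto (fun u : E => u + chartAt E p p) (𝓝 0) (𝓝 (chartAt E p p)) := by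
  have h3 : Continuous (fun u : E => u + chartAt E p p) := by fun_prop
  have h4 := h3.tendsto 0
  rwa [zero_add] at h4

theorem tendsto_symm_shift :
    Tendsto (fun u : E => (chartAt E p).symm (u + chartAt E p p)) (𝓝 0) (𝓝 p) := by
  have hps : p ∈ (chartAt E p).source := mem_chart_source E p
  have h1 := ((chartAt E p).continuousAt_symm ((chartAt E p).map_source hps)).tendsto
  rw [(chartAt E p).left_inv hps] at h1
  exact h1.comp tendsto_shift

theorem ev_dom {g : M → M} (hg : Continuous g) (hp : g p = p) :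
    ∀ᶠ u : E in 𝓝 0, u + chartAt E p p ∈ (chartAt E p).target ∧
      g ((chartAt E p).symm (u + chartAt E p p)) ∈ (chartAt E p).source := by
  have hps : p ∈ (chartAt E p).source := mem_chart_source E p
  refine (tendsto_shift.eventually ((chartAt E p).open_target.mem_nhds
    ((chartAt E p).map_source hps))).and ?_
  have h3 : Tendsto (fun u : E => g ((chartAt E p).symm (u + chartAt E p p))) (𝓝 0) (𝓝 p) := by
    have h4 := (hg.tendsto p).comp (tendsto_symm_shift (E := E) (p := p))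
    rwa [hp] at h4
  exact h3.eventually ((chartAt E p).open_source.mem_nhds hps)

theorem RA_comp {g h : M → M} {u : E}
    (hu : h ((chartAt E p).symm (u + chartAt E p p)) ∈ (chartAt E p).source) :
    RA E g p (RA E h p u) = RA E (g ∘ h) p u := by
  simp only [RA, sub_add_cancel, Function.comp]
  rw [(chartAt E p).left_inv hu]

theorem hasFDerivAt_RA {g : M → M} (hg : ContMDiff 𝓘(ℂ, E) 𝓘(ℂ, E) 1 g) (hp : g p = p) :
    HasFDerivAt (RA E g p) (fderiv ℂ (RA E g p) 0) 0 := by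
  have h := (ev_dom (E := E) hg.continuous hp).self_of_nhds
  exact (differentiableAt_RA hg h.1 h.2).hasFDerivAt

theorem fderiv_RA_comp {g h : M → M} (hg : ContMDiff 𝓘(ℂ, E) 𝓘(ℂ, E) 1 g) (hp : g p = p)
    (hh : ContMDiff 𝓘(ℂ, E) 𝓘(ℂ, E) 1 h) (hp' : h p = p) (hgh : ∀ x, g (h x) = x) :
    (fderiv ℂ (RA E g p) 0).comp (fderiv ℂ (RA E h p) 0) = ContinuousLinearMap.id ℂ E := by
  have h1 : HasFDerivAt (RA E g p) (fderiv ℂ (RA E g p) 0) (RA E h p 0) := by
    rw [RA_zero hp']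
    exact hasFDerivAt_RA hg hp
  have h2 := h1.comp (0:E) (hasFDerivAt_RA hh hp')
  have h3 : (RA E g p ∘ RA E h p) =ᶠ[𝓝 0] id := by
    filter_upwards [ev_dom hh.continuous hp'] with u hu
    have h4 : RA E g p (RA E h p u) = RA E (g ∘ h) p u := RA_comp hu.2
    simp only [Function.comp, id]
    rw [h4]
    simp only [RA, Function.comp, hgh]
    rw [(chartAt E p).right_inv hu.1, add_sub_cancel_right]
  exact (h2.congr_of_eventuallyEq h3.symm).unique (hasFDerivAt_id _)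

theorem exists_D (g : M ≃ₘ^1⟮𝓘(ℂ, E), 𝓘(ℂ, E)⟯ M) (hp : g p = p) :
    ∃ D : E ≃L[ℂ] E, HasFDerivAt (RA E g p) (D : E →L[ℂ] E) 0 := by
  have hp' : g.symm p = p := by
    conv_lhs => rw [← hp]
    exact g.symm_apply_apply p
  have h1 := fderiv_RA_comp (E := E) g.symm.contMDiff hp' g.contMDiff hp
    (fun x => g.symm_apply_apply x)
  have h2 := fderiv_RA_comp (E := E) g.contMDiff hp g.symm.contMDiff hp'
    (fun x => g.apply_symm_apply x)
  refine ⟨ContinuousLinearEquiv.equivOfInverse (fderiv ℂ (RA E g p) 0)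
    (fderiv ℂ (RA E g.symm p) 0) (fun v => ?_) (fun v => ?_), ?_⟩
  · exact congrArg (fun T : E →L[ℂ] E => T v) h1
  · exact congrArg (fun T : E →L[ℂ] E => T v) h2
  · exact hasFDerivAt_RA g.contMDiff hp

/-- local conjugation near the fixed point -/
theorem exists_localA (g : M ≃ₘ^1⟮𝓘(ℂ, E), 𝓘(ℂ, E)⟯ M) (hp : g p = p) {b : ℝ}
    (hb : b < 1) (hDb : ∀ v, ‖fderiv ℂ (RA E g p) 0 v‖ ≤ b * ‖v‖) :
    ∃ (V : Set M) (Λ : M → E) (δ : ℝ) (L G Gi : E → E), IsOpen V ∧ p ∈ V ∧ 0 < δ ∧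
      DifferentiableOn ℂ L (ball 0 δ) ∧ L 0 = 0 ∧
      HasFDerivAt L (ContinuousLinearMap.id ℂ E) 0 ∧
      V = {x | x ∈ (chartAt E p).source ∧ chartAt E p x - chartAt E p p ∈ ball (0 : E) δ} ∧
      (∀ x, Λ x = L (chartAt E p x - chartAt E p p)) ∧
      (∀ u ∈ ball (0 : E) δ, u + chartAt E p p ∈ (chartAt E p).target) ∧
      (∀ x ∈ V, g x ∈ V ∧ Λ (g x) = G (Λ x)) ∧
      (∀ w, Gi (G w) = w) ∧ (∀ w, G (Gi w) = w) ∧ Differentiable ℂ G ∧ Differentiable ℂ Gi ∧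
      ∀ w, Tendsto (fun k : ℕ => (G^[k]) w) atTop (𝓝 0) := by
  have hCE : CompleteSpace E := FiniteDimensional.complete ℂ E
  obtain ⟨D, hD⟩ := exists_D g hp
  have hDb' : ∀ v, ‖D v‖ ≤ b * ‖v‖ := by
    intro v
    have h1 := hDb v
    rw [hD.fderiv] at h1
    exact h1
  set e := chartAt E p with he
  have hps : p ∈ e.source := mem_chart_source E p
  set z₀ := e p with hz₀
  have hdom := ev_dom (E := E) g.contMDiff.continuous hp
  have hRd : ∀ᶠ z in 𝓝 (0:E), DifferentiableAt ℂ (RA E g p) z := by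
    filter_upwards [hdom] with z hz
    exact differentiableAt_RA g.contMDiff hz.1 hz.2
  obtain ⟨δ, hδ, L, G, Gi, hL, hL0, hL1, hR, hLR, hGi1, hGi2, hGd, hGid, hGt⟩ :=
    local_conj (R := RA E g p) hRd (RA_zero hp) (D := D) hD hb hDb'
  obtain ⟨δ₁, hδ₁, hball⟩ := Metric.eventually_nhds_iff_ball.1 hdom
  set δ' := min δ δ₁ with hδ'
  have hδ'0 : 0 < δ' := lt_min hδ hδ₁
  have hs : ball (0:E) δ' ⊆ ball 0 δ := ball_subset_ball (min_le_left _ _)
  have hs₁ : ball (0:E) δ' ⊆ ball 0 δ₁ := ball_subset_ball (min_le_right _ _)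
  refine ⟨_, fun x => L (e x - z₀), δ', L, G, Gi, ?_, ?_, hδ'0, hL.mono hs, hL0, hL1, rfl,
    fun x => rfl, fun u hu => (hball u (hs₁ hu)).1, ?_, hGi1, hGi2, hGd, hGid, hGt⟩
  · exact e.isOpen_inter_preimage ((continuous_sub_right z₀).isOpen_preimage _ isOpen_ball)
  · exact ⟨hps, by rw [sub_self]; exact mem_ball_self hδ'0⟩
  · rintro x ⟨hx1, hx2⟩
    have h3 : (e x - z₀) + z₀ = e x := sub_add_cancel _ _
    have h4 : g x ∈ e.source := by
      have h5 := (hball _ (hs₁ hx2)).2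
      rw [← he, ← hz₀, h3, e.left_inv hx1] at h5
      exact h5
    have h5 : RA E g p (e x - z₀) = e (g x) - z₀ := by
      simp only [RA]
      rw [← he, ← hz₀, h3, e.left_inv hx1]
    have h6 : ‖e (g x) - z₀‖ ≤ ‖e x - z₀‖ := by
      rw [← h5]
      exact hR _ (hs hx2)
    refine ⟨⟨h4, ?_⟩, ?_⟩
    · rw [mem_ball_zero_iff] at hx2 ⊢
      exact h6.trans_lt hx2
    · have h7 := hLR _ (hs hx2)
      rw [h5] at h7
      exact h7

/-- the basin of attraction of a contracting fixed point is the model space -/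
theorem basin_contr (g : M ≃ₘ^1⟮𝓘(ℂ, E), 𝓘(ℂ, E)⟯ M) (hp : g p = p) {b : ℝ}
    (hb : b < 1) (hDb : ∀ v, ‖fderiv ℂ (RA E g p) 0 v‖ ≤ b * ‖v‖)
    (hbas : ∀ x, Tendsto (fun k : ℕ => (g^[k]) x) atTop (𝓝 p)) :
    ∃ F : M ≃ₘ^1⟮𝓘(ℂ, E), 𝓘(ℂ, E)⟯ E, F p = 0 ∧
      HasMFDerivAt 𝓘(ℂ, E) 𝓘(ℂ, E) F p (ContinuousLinearMap.id ℂ E) := by
  have hCE : CompleteSpace E := FiniteDimensional.complete ℂ E
  obtain ⟨V, Λ, δ, L, G, Gi, hVo, hpV, hδ, hL, hL0, hL1, hV, hΛ, htgt, hstep1, hGi1, hGi2, hGd,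
    hGid, hGt⟩ := exists_localA g hp hb hDb
  set e := chartAt E p with he
  have hem : e ∈ maximalAtlas 𝓘(ℂ, E) 1 M := chart_mem_maximalAtlas p
  have hps : p ∈ e.source := mem_chart_source E p
  set z₀ := e p with hz₀
  have hGiG : ∀ (k : ℕ) w, (Gi^[k]) ((G^[k]) w) = w := fun k w =>
    (Function.LeftInverse.iterate (f := G) (g := Gi) hGi1 k) w
  have hgsg : ∀ (k : ℕ) x, (g^[k]) ((g.symm^[k]) x) = x := fun k w =>
    (Function.LeftInverse.iterate (f := g.symm) (g := g) (fun x => g.apply_symm_apply x) k) w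
  have hstep : ∀ x ∈ V, ∀ j : ℕ, (g^[j]) x ∈ V ∧ Λ ((g^[j]) x) = (G^[j]) (Λ x) := by
    intro x hx j
    induction j with
    | zero => exact ⟨hx, rfl⟩
    | succ j ih =>
      obtain ⟨h1, h2⟩ := hstep1 _ ih.1
      rw [Function.iterate_succ_apply', Function.iterate_succ_apply']
      exact ⟨h1, by rw [h2, ih.2]⟩
  have hev : ∀ (x : M) (W : Set M), W ∈ 𝓝 p → ∀ᶠ k : ℕ in atTop, (g^[k]) x ∈ W :=
    fun x W hW => (hbas x).eventually hW
  have hVn : V ∈ 𝓝 p := hVo.mem_nhds hpV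
  have hex : ∀ x, ∃ k : ℕ, (g^[k]) x ∈ V := fun x => (hev x V hVn).exists
  choose κ hκ using hex
  set F : M → E := fun x => (Gi^[κ x]) (Λ ((g^[κ x]) x)) with hFdef
  have hshift : ∀ (x : M) (k j : ℕ), (g^[k]) x ∈ V →
      (Gi^[k + j]) (Λ ((g^[k + j]) x)) = (Gi^[k]) (Λ ((g^[k]) x)) := by
    intro x k j hk
    have h1 : (g^[k + j]) x = (g^[j]) ((g^[k]) x) := by
      rw [add_comm k j, Function.iterate_add_apply]
    rw [h1, (hstep _ hk j).2, Function.iterate_add_apply, hGiG]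
  have hF : ∀ (x : M) (k : ℕ), (g^[k]) x ∈ V → F x = (Gi^[k]) (Λ ((g^[k]) x)) := by
    intro x k hk
    simp only [hFdef]
    rw [← hshift x (κ x) k (hκ x), ← hshift x k (κ x) hk, add_comm]
  have hFV : ∀ x ∈ V, F x = Λ x := fun x hx => hF x 0 hx
  have hFj : ∀ (x : M) (j : ℕ), F ((g^[j]) x) = (G^[j]) (F x) := by
    intro x j
    obtain hk := hκ x
    set k := κ x with hkdef
    have h1 : (g^[k]) ((g^[j]) x) = (g^[j]) ((g^[k]) x) := by
      rw [← Function.iterate_add_apply, ← Function.iterate_add_apply, add_comm]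
    have h2 := hstep _ hk j
    have h3 : (Gi^[k]) ((G^[j]) (Λ ((g^[k]) x))) = (G^[j]) ((Gi^[k]) (Λ ((g^[k]) x))) := by
      have hcomm : Function.Commute Gi G := fun w => by rw [hGi1, hGi2]
      exact (hcomm.iterate_iterate k j) _
    rw [hF ((g^[j]) x) k (by rw [h1]; exact h2.1), h1, h2.2, hF x k hk, h3]
  -- smoothness
  have hgs : ∀ k : ℕ, ContMDiff 𝓘(ℂ, E) 𝓘(ℂ, E) 1 (g^[k]) := by
    intro k
    induction k with
    | zero => exact contMDiff_id
    | succ k ih => exact ih.comp g.contMDiff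
  have hgs' : ∀ k : ℕ, ContMDiff 𝓘(ℂ, E) 𝓘(ℂ, E) 1 (g.symm^[k]) := by
    intro k
    induction k with
    | zero => exact contMDiff_id
    | succ k ih => exact ih.comp g.symm.contMDiff
  have hLs : ContDiffOn ℂ ∞ L (ball 0 δ) := contDiffOn_of_differentiableOn_complex isOpen_ball hL
  have hGic : ∀ k : ℕ, ContDiff ℂ 1 (Gi^[k]) := by
    intro k
    have h1 : Differentiable ℂ (Gi^[k]) := hGid.iterate k
    have h2 := contDiffOn_of_differentiableOn_complex isOpen_univ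
      (h1.differentiableOn (s := univ))
    exact (contDiffOn_univ.1 h2).of_le (by simp)
  have hGc : ∀ k : ℕ, ContDiff ℂ 1 (G^[k]) := by
    intro k
    have h1 : Differentiable ℂ (G^[k]) := hGd.iterate k
    have h2 := contDiffOn_of_differentiableOn_complex isOpen_univ
      (h1.differentiableOn (s := univ))
    exact (contDiffOn_univ.1 h2).of_le (by simp)
  have hΛs : ∀ y ∈ V, ContMDiffAt 𝓘(ℂ, E) 𝓘(ℂ, E) 1 Λ y := by
    intro y hy
    rw [hV] at hy
    have h1 : ContMDiffAt 𝓘(ℂ, E) 𝓘(ℂ, E) 1 e y :=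
      (contMDiffOn_of_mem_maximalAtlas hem).contMDiffAt (e.open_source.mem_nhds hy.1)
    have h2 : ContDiffAt ℂ 1 (fun w : E => L (w - z₀)) (e y) := by
      have h3 : ContDiffAt ℂ 1 L (e y - z₀) :=
        (hLs.contDiffAt (isOpen_ball.mem_nhds hy.2)).of_le (by simp)
      exact ContDiffAt.comp (e y) (g := L) (f := fun w : E => w - z₀) h3
        (contDiffAt_id.sub contDiffAt_const)
    have h3 := h2.contMDiffAt.comp y h1
    have h4 : Λ = (fun w : E => L (w - z₀)) ∘ e := funext fun x => hΛ x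
    rw [h4]
    exact h3
  have hFs : ContMDiff 𝓘(ℂ, E) 𝓘(ℂ, E) 1 F := by
    intro x
    set k := κ x with hkdef
    have hk : (g^[k]) x ∈ V := hκ x
    have hc : Continuous (g^[k]) := (hgs k).continuous
    have h1 : ∀ᶠ y in 𝓝 x, F y = (Gi^[k]) (Λ ((g^[k]) y)) := by
      filter_upwards [(hVo.preimage hc).mem_nhds hk] with y hy
      exact hF y k hy
    have h2 : ContMDiffAt 𝓘(ℂ, E) 𝓘(ℂ, E) 1 (fun y => Λ ((g^[k]) y)) x :=
      (hΛs _ hk).comp x ((hgs k) x)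
    have h3 : ContMDiffAt 𝓘(ℂ, E) 𝓘(ℂ, E) 1 (fun y => (Gi^[k]) (Λ ((g^[k]) y))) x :=
      ((hGic k).contMDiff _).comp x h2
    exact h3.congr_of_eventuallyEq h1
  -- the local inverse
  have hLc : ContDiffAt ℂ 1 L 0 :=
    (hLs.contDiffAt (isOpen_ball.mem_nhds (mem_ball_self hδ))).of_le (by simp)
  have hL1' : HasFDerivAt L ((ContinuousLinearEquiv.refl ℂ E : E ≃L[ℂ] E) : E →L[ℂ] E) 0 := hL1
  set ℓ : OpenPartialHomeomorph E E := hLc.toOpenPartialHomeomorph L hL1' one_ne_zero with hℓ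
  have hℓc : ∀ u, ℓ u = L u := fun u => rfl
  have h0s : (0 : E) ∈ ℓ.source := hLc.mem_toOpenPartialHomeomorph_source hL1' one_ne_zero
  have h0t : (0 : E) ∈ ℓ.target := by
    have h1 := hLc.image_mem_toOpenPartialHomeomorph_target hL1' one_ne_zero
    rwa [hL0] at h1
  have hℓ0 : ℓ.symm 0 = 0 := by
    have h1 := ℓ.left_inv h0s
    rwa [hℓc, hL0] at h1
  have hℓs : ∀ᶠ w in 𝓝 (0:E), ContDiffAt ℂ 1 ℓ.symm w := by
    have h1 := hLc.to_localInverse hL1' one_ne_zero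
    rw [hL0] at h1
    exact h1.eventually (by simp)
  have hgood : ∀ᶠ w in 𝓝 (0:E), w ∈ ℓ.target ∧ ℓ.symm w ∈ ball (0:E) δ ∧
      ContDiffAt ℂ 1 ℓ.symm w := by
    have hA : ∀ᶠ w in 𝓝 (0:E), w ∈ ℓ.target := ℓ.open_target.mem_nhds h0t
    refine hA.and (Filter.Eventually.and ?_ hℓs)
    have h1 := (ℓ.continuousAt_symm h0t).tendsto
    rw [hℓ0] at h1
    exact h1.eventually (ball_mem_nhds (0:E) hδ)
  obtain ⟨r, hr, hball⟩ := Metric.eventually_nhds_iff_ball.1 hgood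
  -- injectivity
  have hcφ : Tendsto (fun x => e x - z₀) (𝓝 p) (𝓝 0) := by
    have h2 := (e.continuousAt hps).tendsto.sub_const z₀
    rwa [← hz₀, sub_self] at h2
  have hinj : Function.Injective F := by
    intro x y hxy
    have hN : {x | x ∈ V ∧ e x - z₀ ∈ ℓ.source} ∈ 𝓝 p :=
      inter_mem hVn (hcφ.eventually (ℓ.open_source.mem_nhds h0s))
    obtain ⟨k, hx, hy⟩ := ((hev x _ hN).and (hev y _ hN)).exists
    have h1 : Λ ((g^[k]) x) = Λ ((g^[k]) y) := by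
      rw [← hFV _ hx.1, ← hFV _ hy.1, hFj, hFj, hxy]
    rw [hΛ, hΛ] at h1
    have h2 := ℓ.injOn hx.2 hy.2 h1
    have h3 : e ((g^[k]) x) = e ((g^[k]) y) := sub_left_injective h2
    have hx' := hx.1
    have hy' := hy.1
    rw [hV] at hx' hy'
    exact (g.injective.iterate k) (e.injOn hx'.1 hy'.1 h3)
  -- the inverse
  set Gk : ℕ → E → M := fun k v => (g.symm^[k]) (e.symm (ℓ.symm ((G^[k]) v) + z₀)) with hGk
  have hGkF : ∀ (k : ℕ) (v : E), (G^[k]) v ∈ ball (0:E) r → F (Gk k v) = v := by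
    intro k v hv
    obtain ⟨h1, h2, h3⟩ := hball _ hv
    set u := ℓ.symm ((G^[k]) v) with hu
    have h4 := htgt u h2
    have h5 : e.symm (u + z₀) ∈ V := by
      rw [hV]
      refine ⟨e.map_target h4, ?_⟩
      rw [e.right_inv h4, add_sub_cancel_right]
      exact h2
    have h6 : Λ (e.symm (u + z₀)) = (G^[k]) v := by
      rw [hΛ, e.right_inv h4, add_sub_cancel_right, ← hℓc, hu, ℓ.right_inv h1]
    have h7 : (g^[k]) (Gk k v) = e.symm (u + z₀) := by
      simp only [hGk]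
      exact hgsg _ _
    rw [hF (Gk k v) k (by rw [h7]; exact h5), h7, h6, hGiG]
  have hexk : ∀ v : E, ∃ k : ℕ, (G^[k]) v ∈ ball (0:E) r := fun v =>
    ((hGt v).eventually (ball_mem_nhds (0:E) hr)).exists
  have hsurj : Function.Surjective F := fun v => by
    obtain ⟨k, hk⟩ := hexk v
    exact ⟨Gk k v, hGkF k v hk⟩
  set Fe : M ≃ E := Equiv.ofBijective F ⟨hinj, hsurj⟩ with hFe
  have hFea : ∀ x, Fe x = F x := fun x => rfl
  have hGs : ContMDiff 𝓘(ℂ, E) 𝓘(ℂ, E) 1 Fe.symm := by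
    intro v
    obtain ⟨k, hk⟩ := hexk v
    have h1 : ∀ᶠ w in 𝓝 v, Fe.symm w = Gk k w := by
      have hc : Continuous (G^[k]) := (hGc k).continuous
      filter_upwards [(isOpen_ball.preimage hc).mem_nhds hk] with w hw
      rw [Equiv.symm_apply_eq, hFea, hGkF k w hw]
    obtain ⟨h2, h3, h4⟩ := hball _ hk
    have h5 : ContDiffAt ℂ 1 (fun w : E => ℓ.symm ((G^[k]) w) + z₀) v :=
      (ContDiffAt.comp v (g := ℓ.symm) (f := fun w : E => (G^[k]) w) h4
        (hGc k).contDiffAt).add contDiffAt_const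
    have h6 : ContMDiffAt 𝓘(ℂ, E) 𝓘(ℂ, E) 1 e.symm (ℓ.symm ((G^[k]) v) + z₀) :=
      (contMDiffOn_symm_of_mem_maximalAtlas hem).contMDiffAt
        (e.open_target.mem_nhds (htgt _ h3))
    have h7 : ContMDiffAt 𝓘(ℂ, E) 𝓘(ℂ, E) 1
        (fun w : E => e.symm (ℓ.symm ((G^[k]) w) + z₀)) v :=
      ContMDiffAt.comp v (g := e.symm) h6 h5.contMDiffAt
    have h8 : ContMDiffAt 𝓘(ℂ, E) 𝓘(ℂ, E) 1 (Gk k) v :=
      ((hgs' k) _).comp v h7
    exact h8.congr_of_eventuallyEq h1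
  let Φ : M ≃ₘ^1⟮𝓘(ℂ, E), 𝓘(ℂ, E)⟯ E :=
    { toEquiv := Fe
      contMDiff_toFun := hFs
      contMDiff_invFun := hGs }
  have hΦ : ∀ x, Φ x = F x := fun x => rfl
  refine ⟨Φ, ?_, ?_⟩
  · rw [hΦ, hFV p hpV, hΛ, ← hz₀, sub_self, hL0]
  · have hmd : MDifferentiableAt 𝓘(ℂ, E) 𝓘(ℂ, E) Φ p := (hFs.mdifferentiable (by simp)) p
    have h0 : (mfderiv 𝓘(ℂ, E) 𝓘(ℂ, E) Φ p : E →L[ℂ] E) =
        fderivWithin ℂ (writtenInExtChartAt 𝓘(ℂ, E) 𝓘(ℂ, E) p Φ) (range 𝓘(ℂ, E))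
          (extChartAt 𝓘(ℂ, E) p p) := hmd.mfderiv
    have h1 : (mfderiv 𝓘(ℂ, E) 𝓘(ℂ, E) Φ p : E →L[ℂ] E) =
        fderiv ℂ (fun w => F (e.symm w)) z₀ := by
      rw [h0]
      simp only [writtenInExtChartAt, extChartAt, mfld_simps, fderivWithin_univ]
      rfl
    have h2 : ∀ᶠ w in 𝓝 z₀, F (e.symm w) = L (w - z₀) := by
      have h3 : ∀ᶠ w in 𝓝 z₀, e.symm w ∈ V := by
        have h4 := (e.continuousAt_symm (e.map_source hps)).tendsto
        rw [e.left_inv hps] at h4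
        exact h4.eventually hVn
      filter_upwards [h3, e.open_target.mem_nhds (e.map_source hps)] with w hw hw2
      rw [hFV _ hw, hΛ, e.right_inv hw2]
    have h3 : HasFDerivAt (fun w => L (w - z₀)) (ContinuousLinearMap.id ℂ E) z₀ := by
      have h4 : HasFDerivAt L (ContinuousLinearMap.id ℂ E) (z₀ - z₀) := by rwa [sub_self]
      have h5 : HasFDerivAt (fun w : E => w - z₀) (ContinuousLinearMap.id ℂ E) z₀ :=
        (hasFDerivAt_id z₀).sub_const z₀
      have h6 := HasFDerivAt.comp z₀ (g := L) (f := fun w : E => w - z₀) h4 h5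
      rwa [ContinuousLinearMap.id_comp] at h6
    have h4 : fderiv ℂ (fun w => F (e.symm w)) z₀ = ContinuousLinearMap.id ℂ E := by
      rw [Filter.EventuallyEq.fderiv_eq h2, h3.fderiv]
    rw [h4] at h1
    have h5 := hmd.hasMFDerivAt
    have h6 : (mfderiv 𝓘(ℂ, E) 𝓘(ℂ, E) Φ p) = (ContinuousLinearMap.id ℂ E : E →L[ℂ] E) := h1
    rw [h6] at h5
    exact h5

/-- an iterate contracts the tangent space -/
theorem exists_contrA {f : M → M} (hf : ContMDiff 𝓘(ℂ, E) 𝓘(ℂ, E) 1 f)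
    (hconv : ∃ U ∈ 𝓝 p, ∀ W ∈ 𝓝 p, ∀ᶠ k : ℕ in atTop, ∀ x ∈ U, (f^[k]) x ∈ W)
    (hbas : ∀ x, Tendsto (fun k : ℕ => (f^[k]) x) atTop (𝓝 p)) :
    ∃ N : ℕ, 0 < N ∧ ∀ v, ‖fderiv ℂ (RA E (f^[N]) p) 0 v‖ ≤ 1 / 4 * ‖v‖ := by
  have hCE : CompleteSpace E := FiniteDimensional.complete ℂ E
  have hPE : ProperSpace E := FiniteDimensional.proper ℂ E
  have hps : p ∈ (chartAt E p).source := mem_chart_source E p
  set e := chartAt E p with he
  set z₀ := e p with hz₀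
  have hfs : ∀ k : ℕ, ContMDiff 𝓘(ℂ, E) 𝓘(ℂ, E) 1 (f^[k]) := by
    intro k
    induction k with
    | zero => exact contMDiff_id
    | succ k ih => exact ih.comp hf
  have hWn : {x | x ∈ e.source ∧ e x ∈ ball z₀ 1} ∈ 𝓝 p := by
    refine inter_mem (e.open_source.mem_nhds hps) ?_
    exact (e.continuousAt hps).preimage_mem_nhds (ball_mem_nhds _ one_pos)
  obtain ⟨U, hU, hUt⟩ := hconv
  have hsym : Tendsto (fun u : E => e.symm (u + z₀)) (𝓝 0) (𝓝 p) := tendsto_symm_shift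
  have htgt : ∀ᶠ u : E in 𝓝 0, u + z₀ ∈ e.target :=
    tendsto_shift.eventually (e.open_target.mem_nhds (e.map_source hps))
  obtain ⟨r₀, hr₀, hball⟩ := Metric.eventually_nhds_iff_ball.1
    ((hsym.eventually hU).and htgt)
  set r := r₀ / 2 with hr
  have hr0 : 0 < r := by positivity
  have hcb : ∀ u ∈ closedBall (0:E) r, e.symm (u + z₀) ∈ U ∧ u + z₀ ∈ e.target := fun u hu =>
    hball u (closedBall_subset_ball (by rw [hr]; linarith) hu)
  -- the maps in the chart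
  have hRh : ∀ (k : ℕ) (u : E), RA E (f^[k]) p u = e ((f^[k]) (e.symm (u + z₀))) - z₀ :=
    fun k u => rfl
  have hev1 : ∀ᶠ k : ℕ in atTop, ∀ u ∈ closedBall (0:E) r,
      DifferentiableAt ℂ (RA E (f^[k]) p) u ∧ ‖RA E (f^[k]) p u‖ ≤ 1 := by
    filter_upwards [hUt _ hWn] with t ht u hu
    obtain ⟨h1, h2⟩ := hcb u hu
    obtain ⟨h3, h4⟩ := ht _ h1
    refine ⟨differentiableAt_RA (hfs t) h2 h3, ?_⟩
    rw [hRh, ← dist_eq_norm]
    exact (mem_ball.1 h4).le
  have hpt : ∀ u ∈ closedBall (0:E) r,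
      Tendsto (fun k : ℕ => RA E (f^[k]) p u) atTop (𝓝 0) := by
    intro u _
    have h1 := (e.continuousAt hps).tendsto.comp (hbas (e.symm (u + z₀)))
    have h2 := h1.sub_const z₀
    rw [← hz₀, sub_self] at h2
    exact h2
  have hη : 0 < r ^ 2 / 32 := by positivity
  obtain ⟨S, hSs, hSf, hSc⟩ := (isCompact_closedBall (0:E) (r / 2)).finite_cover_balls hη
  have hhalf : closedBall (0:E) (r / 2) ⊆ closedBall 0 r :=
    closedBall_subset_closedBall (by linarith)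
  have hev2 : ∀ᶠ k : ℕ in atTop, ∀ u ∈ S, ‖RA E (f^[k]) p u‖ < r / 16 := by
    refine (eventually_all_finite hSf).2 fun u hu => ?_
    have h1 := (hpt u (hhalf (hSs hu))).eventually
      (ball_mem_nhds (0:E) (ε := r / 16) (by positivity))
    filter_upwards [h1] with t ht
    rwa [dist_zero_right] at ht
  obtain ⟨N, ⟨hT1, hT2⟩, hT0⟩ := ((hev1.and hev2).and (eventually_gt_atTop 0)).exists
  refine ⟨N, hT0, fun v => ?_⟩
  set h := RA E (f^[N]) p with hh
  have hlip : ∀ u ∈ closedBall (0:E) (r / 2), ‖fderiv ℂ h u‖ ≤ 1 / (r / 2) := by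
    intro u hu
    have hsub : closedBall u (r / 2) ⊆ closedBall (0:E) r := by
      refine closedBall_subset_closedBall' ?_
      have := mem_closedBall.1 hu
      linarith
    exact cauchy_fderiv (by positivity) zero_le_one (fun w hw => (hT1 w (hsub hw)).1)
      (fun w hw => (hT1 w (hsub hw)).2)
  have hsmall : ∀ u ∈ closedBall (0:E) (r / 2), ‖h u‖ ≤ r / 8 := by
    intro u hu
    obtain ⟨w, hwS, hw⟩ := mem_iUnion₂.1 (hSc hu)
    have h1 : ‖h u - h w‖ ≤ 1 / (r / 2) * ‖u - w‖ :=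
      (convex_closedBall (0:E) (r / 2)).norm_image_sub_le_of_norm_fderiv_le
        (fun y hy => (hT1 y (hhalf hy)).1) hlip (hSs hwS) hu
    have h2 : ‖u - w‖ ≤ r ^ 2 / 32 := by
      rw [← dist_eq_norm]; exact (mem_ball.1 hw).le
    have h3 : 1 / (r / 2) * ‖u - w‖ ≤ r / 16 := by
      calc 1 / (r / 2) * ‖u - w‖ ≤ 1 / (r / 2) * (r ^ 2 / 32) :=
            mul_le_mul_of_nonneg_left h2 (by positivity)
        _ = r / 16 := by field_simp; ring
    have h4 : ‖h u‖ ≤ ‖h u - h w‖ + ‖h w‖ := by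
      have := norm_add_le (h u - h w) (h w)
      rwa [sub_add_cancel] at this
    have h5 := (hT2 w hwS).le
    linarith
  have hd : ‖fderiv ℂ h 0‖ ≤ (r / 8) / (r / 2) :=
    cauchy_fderiv (by positivity) (by positivity)
      (fun w hw => (hT1 w (hhalf hw)).1) hsmall
  have hq : (r / 8) / (r / 2) = 1 / 4 := by field_simp; ring
  rw [hq] at hd
  exact (ContinuousLinearMap.le_opNorm _ v).trans (mul_le_mul_of_nonneg_right hd (norm_nonneg _))

/-- iterates of a biholomorphism -/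
def itd (f : M ≃ₘ^1⟮𝓘(ℂ, E), 𝓘(ℂ, E)⟯ M) : ℕ → (M ≃ₘ^1⟮𝓘(ℂ, E), 𝓘(ℂ, E)⟯ M)
  | 0 => Diffeomorph.refl 𝓘(ℂ, E) M 1
  | (k + 1) => f.trans (itd f k)

theorem itd_apply (f : M ≃ₘ^1⟮𝓘(ℂ, E), 𝓘(ℂ, E)⟯ M) (k : ℕ) (x : M) :
    itd f k x = (f^[k]) x := by
  induction k generalizing x with
  | zero => rfl
  | succ k ih =>
    rw [Function.iterate_succ_apply, ← ih]
    rfl

/-- **the basin of attraction is `ℂⁿ`**: a biholomorphism all of whose orbits converge to a fixed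
point, uniformly near the point (Rosay-Rudin, no condition on the differential) -/
theorem basin_auto (f : M ≃ₘ^1⟮𝓘(ℂ, E), 𝓘(ℂ, E)⟯ M) {p : M} (hp : f p = p)
    (hconv : ∃ U ∈ 𝓝 p, ∀ W ∈ 𝓝 p, ∀ᶠ k : ℕ in atTop, ∀ x ∈ U, (f^[k]) x ∈ W)
    (hbas : ∀ x, Tendsto (fun k : ℕ => (f^[k]) x) atTop (𝓝 p)) :
    ∃ F : M ≃ₘ^1⟮𝓘(ℂ, E), 𝓘(ℂ, E)⟯ E, F p = 0 ∧
      HasMFDerivAt 𝓘(ℂ, E) 𝓘(ℂ, E) F p (ContinuousLinearMap.id ℂ E) := by
  obtain ⟨N, hN, hc⟩ := exists_contrA (E := E) f.contMDiff hconv hbas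
  have hfun : (itd f N : M → M) = f^[N] := funext fun x => itd_apply f N x
  have hpN : itd f N p = p := by
    rw [itd_apply]
    exact Function.iterate_fixed hp N
  refine basin_contr (itd f N) hpN (b := 1 / 4) (by norm_num) ?_ ?_
  · rw [hfun]
    exact hc
  · intro x
    have h1 : (fun k : ℕ => ((itd f N)^[k]) x) = fun k : ℕ => (f^[N * k]) x := by
      funext k
      rw [hfun, ← Function.iterate_mul]
    rw [h1]
    exact (hbas x).comp (tendsto_id.const_mul_atTop' hN)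

end Vale.Agent.P253.H661
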