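import Vale.Agent.P253.Bdl.B1
import Mathlib.Analysis.Complex.OpenMapping
import Mathlib.Analysis.Analytic.Order

/-!
P253: a zero set in two complex variables contains the graph of a Lipschitz function.
-/

open scoped ContDiff Topology
open Set Metric Complex Filter

set_option maxSynthPendingDepth 3
set_option linter.unusedSectionVars false

noncomputable section

namespace Vale.Agent.P253.H661

open Vale.Agent.P253.Mfd

/-- iterated derivatives in the second variable -/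
def Kd (H : ℂ × ℂ → ℂ) (j : ℕ) (x : ℂ × ℂ) : ℂ := iteratedDeriv j (fun w => H (x.1, w)) x.2

theorem Kd_zero (H : ℂ × ℂ → ℂ) : Kd H 0 = H := by
  funext x
  simp [Kd]

theorem Kd_succ (H : ℂ × ℂ → ℂ) (j : ℕ) (x : ℂ × ℂ) :
    Kd H (j + 1) x = deriv (fun w => Kd H j (x.1, w)) x.2 := by
  simp only [Kd, iteratedDeriv_succ]

theorem hasDerivAt_slice {K : ℂ × ℂ → ℂ} {x : ℂ × ℂ} (hK : DifferentiableAt ℂ K x) :
    HasDerivAt (fun w => K (x.1, w)) (fderiv ℂ K x (0, 1)) x.2 := by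
  have h4 : HasFDerivAt K (fderiv ℂ K x) (x.1, x.2) := hK.hasFDerivAt
  have h5 : HasDerivAt (fun w : ℂ => (x.1, w)) ((0:ℂ), (1:ℂ)) x.2 :=
    (hasDerivAt_const x.2 x.1).prodMk (hasDerivAt_id x.2)
  exact HasFDerivAt.comp_hasDerivAt x.2 h4 h5

theorem differentiableOn_Kd {P : Set (ℂ × ℂ)} (hP : IsOpen P) {H : ℂ × ℂ → ℂ}
    (hH : DifferentiableOn ℂ H P) (j : ℕ) : DifferentiableOn ℂ (Kd H j) P := by
  induction j with
  | zero => rw [Kd_zero]; exact hH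
  | succ j ih =>
    have h1 : ContDiffOn ℂ ∞ (Kd H j) P := contDiffOn_of_differentiableOn_complex hP ih
    have h2 : DifferentiableOn ℂ (fderiv ℂ (Kd H j)) P :=
      (h1.fderiv_of_isOpen hP (m := ∞) (by simp)).differentiableOn (by simp)
    have h3 : DifferentiableOn ℂ (fun x => fderiv ℂ (Kd H j) x (0, 1)) P :=
      h2.clm_apply (differentiableOn_const _)
    refine h3.congr fun x hx => ?_
    rw [Kd_succ]
    exact (hasDerivAt_slice (ih.differentiableAt (hP.mem_nhds hx))).deriv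

/-- the zero set of a function of two variables contains a Lipschitz graph over a disc -/
theorem exists_root {R : ℝ} {H : ℂ × ℂ → ℂ}
    (hH : DifferentiableOn ℂ H (ball 0 R ×ˢ ball 0 R)) (h0 : H (0, 0) = 0) {w₀ : ℂ}
    (hw₀ : w₀ ∈ ball (0 : ℂ) R) (hne : H (0, w₀) ≠ 0) :
    ∃ (t₁ : ℂ) (δ C : ℝ) (w : ℂ → ℂ), 0 < δ ∧
      (∀ t ∈ ball t₁ δ, t ∈ ball (0 : ℂ) R ∧ w t ∈ ball (0 : ℂ) R ∧ H (t, w t) = 0) ∧
      ∀ t ∈ ball t₁ δ, ∀ t' ∈ ball t₁ δ, ‖w t - w t'‖ ≤ C * ‖t - t'‖ := by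
  have hR : 0 < R := pos_of_mem_ball hw₀
  set P : Set (ℂ × ℂ) := ball 0 R ×ˢ ball 0 R with hP
  have hPo : IsOpen P := isOpen_ball.prod isOpen_ball
  have hHc : ContinuousOn H P := hH.continuousOn
  have hslice : ∀ t ∈ ball (0:ℂ) R, AnalyticOnNhd ℂ (fun w => H (t, w)) (ball 0 R) := by
    intro t ht
    refine DifferentiableOn.analyticOnNhd (fun w hw => ?_) isOpen_ball
    have h1 : DifferentiableAt ℂ H (t, w) := hH.differentiableAt (hPo.mem_nhds ⟨ht, hw⟩)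
    exact (hasDerivAt_slice (x := (t, w)) h1).differentiableAt.differentiableWithinAt
  have hpre : IsPreconnected (ball (0:ℂ) R) := (convex_ball 0 R).isPreconnected
  have h0R : (0:ℂ) ∈ ball (0:ℂ) R := mem_ball_self hR
  -- the circle
  obtain ⟨r, hr, hrR, hr0⟩ : ∃ r > 0, r < R ∧ ∀ w ∈ sphere (0:ℂ) r, H (0, w) ≠ 0 := by
    rcases (hslice 0 h0R 0 h0R).eventually_eq_zero_or_eventually_ne_zero with h1 | h1
    · exact absurd ((hslice 0 h0R).eqOn_zero_of_preconnected_of_eventuallyEq_zero hpre h0R h1 hw₀)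
        hne
    · rw [eventually_nhdsWithin_iff, Metric.eventually_nhds_iff_ball] at h1
      obtain ⟨ε, hε, h2⟩ := h1
      have hm : 0 < min ε R := lt_min hε hR
      refine ⟨min ε R / 2, by positivity, ?_, fun w hw => h2 w ?_ ?_⟩
      · have := min_le_right ε R
        linarith
      · rw [mem_sphere_zero_iff_norm] at hw
        rw [mem_ball_zero_iff, hw]
        have := min_le_left ε R
        linarith
      · rintro rfl
        rw [mem_sphere_zero_iff_norm, norm_zero] at hw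
        linarith
  have hsphR : sphere (0:ℂ) r ⊆ ball 0 R := fun w hw => by
    rw [mem_sphere_zero_iff_norm] at hw
    rw [mem_ball_zero_iff, hw]
    exact hrR
  obtain ⟨u, v, huo, hvo, h0u, hsv, huv⟩ : ∃ (u v : Set ℂ), IsOpen u ∧ IsOpen v ∧ {(0:ℂ)} ⊆ u ∧
      sphere (0:ℂ) r ⊆ v ∧ u ×ˢ v ⊆ P ∩ H ⁻¹' {0}ᶜ := by
    refine generalized_tube_lemma isCompact_singleton (isCompact_sphere 0 r)
      (hHc.isOpen_inter_preimage hPo isOpen_compl_singleton) ?_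
    rintro ⟨t, w⟩ ⟨ht, hw⟩
    rw [mem_singleton_iff] at ht
    simp only at ht hw
    subst ht
    exact ⟨⟨h0R, hsphR hw⟩, hr0 w hw⟩
  have h0u' : (0:ℂ) ∈ u := h0u rfl
  -- the zero set
  set Z : Set (ℂ × ℂ) := {x | x.1 ∈ u ∧ x.1 ∈ ball (0:ℂ) R ∧ x.2 ∈ ball (0:ℂ) r ∧ H x = 0} with hZ
  have hrR' : ball (0:ℂ) r ⊆ ball 0 R := ball_subset_ball hrR.le
  have hZP : ∀ x ∈ Z, x ∈ P := fun x hx => ⟨hx.2.1, hrR' hx.2.2.1⟩
  have hfin : ∀ x ∈ Z, analyticOrderAt (fun w => H (x.1, w)) x.2 ≠ ⊤ := by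
    intro x hx htop
    rw [analyticOrderAt_eq_top] at htop
    have h1 := (hslice x.1 hx.2.1).eqOn_zero_of_preconnected_of_eventuallyEq_zero hpre
      (hrR' hx.2.2.1) htop
    have hrs : (r : ℂ) ∈ sphere (0:ℂ) r := by
      rw [mem_sphere_zero_iff_norm, Complex.norm_real, Real.norm_of_nonneg hr.le]
    have h2 : (x.1, (r : ℂ)) ∈ P ∩ H ⁻¹' {0}ᶜ := huv ⟨hx.1, hsv hrs⟩
    exact h2.2 (h1 (hsphR hrs))
  have hZne : ∃ n : ℕ, ∃ x ∈ Z, analyticOrderAt (fun w => H (x.1, w)) x.2 = n := by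
    have h1 : ((0:ℂ), (0:ℂ)) ∈ Z := ⟨h0u', h0R, mem_ball_self hr, h0⟩
    obtain ⟨n, hn⟩ := ENat.ne_top_iff_exists.1 (hfin _ h1)
    exact ⟨n, _, h1, hn.symm⟩
  classical
  obtain ⟨x₁, hx₁, hord⟩ := Nat.find_spec hZne
  set m := Nat.find hZne with hm
  have hmin : ∀ x ∈ Z, (m : ℕ∞) ≤ analyticOrderAt (fun w => H (x.1, w)) x.2 := by
    intro x hx
    obtain ⟨n, hn⟩ := ENat.ne_top_iff_exists.1 (hfin _ hx)
    rw [← hn]
    exact_mod_cast Nat.find_min' hZne ⟨x, hx, hn.symm⟩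
  have han : ∀ x ∈ Z, AnalyticAt ℂ (fun w => H (x.1, w)) x.2 := fun x hx =>
    hslice x.1 hx.2.1 x.2 (hrR' hx.2.2.1)
  obtain ⟨-, hm2⟩ := (analyticOrderAt_eq_nat_iff_iteratedDeriv_eq_zero (han x₁ hx₁)).1 hord
  obtain ⟨j, hj⟩ : ∃ j, m = j + 1 := by
    refine Nat.exists_eq_add_one_of_ne_zero fun h => hm2 ?_
    rw [h, iteratedDeriv_zero]
    exact hx₁.2.2.2
  have hKZ : ∀ x ∈ Z, Kd H j x = 0 := by
    intro x hx
    exact (natCast_le_analyticOrderAt_iff_iteratedDeriv_eq_zero (han x hx)).1 (hmin x hx) j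
      (by omega)
  have hKd := differentiableOn_Kd hPo hH j
  have hKx : DifferentiableAt ℂ (Kd H j) x₁ := hKd.differentiableAt (hPo.mem_nhds (hZP _ hx₁))
  set K' := fderiv ℂ (Kd H j) x₁ with hK'
  have hc : K' (0, 1) ≠ 0 := by
    have h1 : Kd H (j + 1) x₁ ≠ 0 := by
      rw [← hj]
      exact hm2
    rwa [Kd_succ, (hasDerivAt_slice hKx).deriv] at h1
  set c := K' (0, 1) with hcdef
  set a := K' (1, 0) with hadef
  have hc0 : 0 < ‖c‖ := norm_pos_iff.2 hc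
  -- strict differentiability
  have hstrict : HasStrictFDerivAt (Kd H j) K' x₁ := by
    have h1 : ContDiffAt ℂ ∞ (Kd H j) x₁ :=
      (contDiffOn_of_differentiableOn_complex hPo hKd).contDiffAt (hPo.mem_nhds (hZP _ hx₁))
    exact h1.hasStrictFDerivAt (by simp)
  obtain ⟨ρ₀, hρ₀, hlip⟩ : ∃ ρ₀ > 0, ∀ x ∈ ball x₁ ρ₀, ∀ y ∈ ball x₁ ρ₀,
      ‖Kd H j x - Kd H j y - K' (x - y)‖ ≤ ‖c‖ / 2 * ‖x - y‖ := by
    have h1 := (hasStrictFDerivAt_iff_isLittleO.1 hstrict).def (half_pos hc0)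
    rw [nhds_prod_eq, eventually_prod_iff] at h1
    obtain ⟨pa, hpa, pb, hpb, h2⟩ := h1
    obtain ⟨ε, hε, h3⟩ := Metric.eventually_nhds_iff_ball.1 (hpa.and hpb)
    exact ⟨ε, hε, fun x hx y hy => h2 (h3 x hx).1 (h3 y hy).2⟩
  have hlipZ : ∀ x ∈ ball x₁ ρ₀, ∀ y ∈ ball x₁ ρ₀, x ∈ Z → y ∈ Z →
      ‖x.2 - y.2‖ ≤ (2 * ‖a‖ / ‖c‖ + 1) * ‖x.1 - y.1‖ := by
    intro x hx y hy hxZ hyZ
    have h1 := hlip x hx y hy
    rw [hKZ x hxZ, hKZ y hyZ, sub_zero, zero_sub, norm_neg] at h1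
    have h2 : K' (x - y) = (x.1 - y.1) * a + (x.2 - y.2) * c := by
      have h3 : x - y = (x.1 - y.1) • ((1:ℂ), (0:ℂ)) + (x.2 - y.2) • ((0:ℂ), (1:ℂ)) := by
        ext <;> simp
      rw [h3, map_add, map_smul, map_smul, smul_eq_mul, smul_eq_mul]
    have h3 : ‖x - y‖ ≤ ‖x.1 - y.1‖ + ‖x.2 - y.2‖ := by
      rw [Prod.norm_def]
      exact max_le (le_add_of_nonneg_right (norm_nonneg _)) (le_add_of_nonneg_left (norm_nonneg _))
    have h4 : ‖x.2 - y.2‖ * ‖c‖ ≤ ‖K' (x - y)‖ + ‖x.1 - y.1‖ * ‖a‖ := by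
      rw [← norm_mul, ← norm_mul]
      have h5 : (x.2 - y.2) * c = K' (x - y) - (x.1 - y.1) * a := by rw [h2]; ring
      rw [h5]
      exact norm_sub_le _ _
    have h5 : ‖x.2 - y.2‖ * ‖c‖ ≤
        ‖c‖ / 2 * (‖x.1 - y.1‖ + ‖x.2 - y.2‖) + ‖x.1 - y.1‖ * ‖a‖ :=
      h4.trans (add_le_add_left (h1.trans (mul_le_mul_of_nonneg_left h3 (by positivity))) _)
    have h6 : ‖c‖ / 2 * ‖x.2 - y.2‖ ≤ (‖a‖ + ‖c‖ / 2) * ‖x.1 - y.1‖ := by linarith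
    have h7 : ‖x.2 - y.2‖ ≤ (‖a‖ + ‖c‖ / 2) * ‖x.1 - y.1‖ / (‖c‖ / 2) := by
      rw [le_div_iff₀ (by positivity)]
      linarith
    calc ‖x.2 - y.2‖ ≤ (‖a‖ + ‖c‖ / 2) * ‖x.1 - y.1‖ / (‖c‖ / 2) := h7
      _ = (2 * ‖a‖ / ‖c‖ + 1) * ‖x.1 - y.1‖ := by field_simp
  -- Hurwitz
  set t₁ := x₁.1 with ht₁
  set w₁ := x₁.2 with hw₁
  have hx₁e : x₁ = (t₁, w₁) := rfl
  have ht₁R : t₁ ∈ ball (0:ℂ) R := hx₁.2.1
  have hw₁r : w₁ ∈ ball (0:ℂ) r := hx₁.2.2.1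
  have hH₁ : H (t₁, w₁) = 0 := hx₁.2.2.2
  have hiso : ∀ᶠ w in 𝓝[≠] w₁, H (t₁, w) ≠ 0 := by
    rcases (han x₁ hx₁).eventually_eq_zero_or_eventually_ne_zero with h1 | h1
    · exact absurd (analyticOrderAt_eq_top.2 h1) (hfin x₁ hx₁)
    · exact h1
  obtain ⟨ρ, hρ, hρρ₀, hρr, hρs⟩ : ∃ ρ > 0, ρ < ρ₀ ∧ closedBall w₁ ρ ⊆ ball 0 r ∧
      ∀ w ∈ sphere w₁ ρ, H (t₁, w) ≠ 0 := by
    rw [eventually_nhdsWithin_iff] at hiso
    obtain ⟨ε, hε, h2⟩ := Metric.eventually_nhds_iff_ball.1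
      (hiso.and (isOpen_ball.mem_nhds hw₁r))
    have hm : 0 < min ε ρ₀ := lt_min hε hρ₀
    refine ⟨min ε ρ₀ / 2, by positivity, ?_, fun w hw => (h2 w ?_).2, fun w hw => (h2 w ?_).1 ?_⟩
    · have := min_le_right ε ρ₀
      linarith
    · rw [mem_ball]
      have := mem_closedBall.1 hw
      have := min_le_left ε ρ₀
      linarith
    · rw [mem_ball, mem_sphere.1 hw]
      have := min_le_left ε ρ₀
      linarith
    · rintro rfl
      rw [mem_sphere, dist_self] at hw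
      linarith
  have hsphP : ∀ w ∈ closedBall w₁ ρ, w ∈ ball (0:ℂ) R := fun w hw => hrR' (hρr hw)
  have hcH₁ : ContinuousOn (fun w => ‖H (t₁, w)‖) (sphere w₁ ρ) := by
    refine (hHc.comp (by fun_prop) fun w hw => ?_).norm
    exact ⟨ht₁R, hsphP w (sphere_subset_closedBall hw)⟩
  obtain ⟨wm, hwm, hwmin⟩ := (isCompact_sphere w₁ ρ).exists_isMinOn
    (NormedSpace.sphere_nonempty.2 hρ.le) hcH₁
  set ε := ‖H (t₁, wm)‖ with hε
  have hε0 : 0 < ε := norm_pos_iff.2 (hρs wm hwm)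
  have hεle : ∀ w ∈ sphere w₁ ρ, ε ≤ ‖H (t₁, w)‖ := fun w hw => hwmin hw
  have hcG : ContinuousOn (fun x : ℂ × ℂ => ‖H x - H (x.1, w₁)‖) P := by
    refine (hHc.sub (hHc.comp (by fun_prop) fun x hx => ?_)).norm
    exact ⟨hx.1, hrR' hw₁r⟩
  obtain ⟨u₂, v₂, hu₂o, -, htu₂, hsv₂, huv₂⟩ : ∃ (u v : Set ℂ), IsOpen u ∧ IsOpen v ∧
      {t₁} ⊆ u ∧ sphere w₁ ρ ⊆ v ∧
      u ×ˢ v ⊆ P ∩ (fun x : ℂ × ℂ => ‖H x - H (x.1, w₁)‖) ⁻¹' Ioi (ε / 2) := by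
    refine generalized_tube_lemma isCompact_singleton (isCompact_sphere w₁ ρ)
      (hcG.isOpen_inter_preimage hPo isOpen_Ioi) ?_
    rintro ⟨t, w⟩ ⟨ht, hw⟩
    rw [mem_singleton_iff] at ht
    simp only at ht hw
    subst ht
    refine ⟨⟨ht₁R, hsphP w (sphere_subset_closedBall hw)⟩, ?_⟩
    simp only [mem_preimage, mem_Ioi]
    have h1 := hεle w hw
    rw [hH₁, sub_zero]
    linarith
  have hsmall : ∀ᶠ t in 𝓝 t₁, ‖H (t, w₁)‖ < ε / 4 := by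
    have h1 : ContinuousAt H (t₁, w₁) := hHc.continuousAt (hPo.mem_nhds ⟨ht₁R, hrR' hw₁r⟩)
    have h2 : ContinuousAt (fun t : ℂ => (t, w₁)) t₁ := by fun_prop
    have h3 : ContinuousAt (fun t : ℂ => ‖H (t, w₁)‖) t₁ :=
      (ContinuousAt.comp (g := H) (f := fun t : ℂ => (t, w₁)) h1 h2).norm
    refine h3.eventually (gt_mem_nhds ?_)
    change ‖H (t₁, w₁)‖ < ε / 4
    rw [hH₁, norm_zero]
    positivity
  have e1 : ∀ᶠ t in 𝓝 t₁, t ∈ u₂ := hu₂o.mem_nhds (htu₂ rfl)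
  have e2 : ∀ᶠ t in 𝓝 t₁, t ∈ u := huo.mem_nhds hx₁.1
  have e3 : ∀ᶠ t in 𝓝 t₁, t ∈ ball (0:ℂ) R := isOpen_ball.mem_nhds ht₁R
  have e4 : ∀ᶠ t in 𝓝 t₁, t ∈ ball t₁ ρ₀ := ball_mem_nhds t₁ hρ₀
  obtain ⟨δ, hδ, hball⟩ := Metric.eventually_nhds_iff_ball.1
    ((hsmall.and e1).and (e2.and (e3.and e4)))
  have hroot : ∀ t ∈ ball t₁ δ, ∃ w ∈ closedBall w₁ ρ, H (t, w) = 0 := by
    intro t ht
    obtain ⟨⟨h1, h2⟩, h3, h4, h5⟩ := hball t ht
    have hle : ∀ w ∈ sphere w₁ ρ, ε / 2 ≤ ‖H (t, w) - H (t, w₁)‖ := by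
      intro w hw
      have h6 := huv₂ (show (t, w) ∈ u₂ ×ˢ v₂ from ⟨h2, hsv₂ hw⟩)
      have h7 : ε / 2 < ‖H (t, w) - H (t, w₁)‖ := h6.2
      exact h7.le
    have hdc : DiffContOnCl ℂ (fun w => H (t, w)) (ball w₁ ρ) := by
      have h6 : DifferentiableOn ℂ (fun w => H (t, w)) (closure (ball w₁ ρ)) := by
        rw [closure_ball w₁ hρ.ne']
        exact (hslice t h4).differentiableOn.mono hsphP
      exact h6.diffContOnCl
    have hfr : ∃ᶠ z in 𝓝 w₁, (fun w => H (t, w)) z ≠ (fun w => H (t, w)) w₁ := by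
      intro h6
      have h7 : (fun w => H (t, w)) =ᶠ[𝓝 w₁] fun _ => H (t, w₁) := by
        filter_upwards [h6] with z hz
        by_contra h8
        exact hz h8
      have h8 := (hslice t h4).eqOn_of_preconnected_of_eventuallyEq
        (analyticOnNhd_const) hpre (hrR' hw₁r) h7
      obtain ⟨y, hy⟩ := (NormedSpace.sphere_nonempty (x := w₁)).2 hρ.le
      have h9 : H (t, y) = H (t, w₁) := h8 (hsphP y (sphere_subset_closedBall hy))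
      have h10 := hle y hy
      rw [h9, sub_self, norm_zero] at h10
      linarith
    have h6 := hdc.ball_subset_image_closedBall hρ hle hfr
    have h7 : (0:ℂ) ∈ ball (H (t, w₁)) (ε / 2 / 2) := by
      rw [mem_ball, dist_comm, dist_zero_right]
      linarith
    obtain ⟨w, hw, hw0⟩ := h6 h7
    exact ⟨w, hw, hw0⟩
  choose! w hw1 hw2 using hroot
  have hmem : ∀ t ∈ ball t₁ δ, (t, w t) ∈ Z ∧ (t, w t) ∈ ball x₁ ρ₀ := by
    intro t ht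
    obtain ⟨⟨h1, h2⟩, h3, h4, h5⟩ := hball t ht
    refine ⟨⟨h3, h4, hρr (hw1 t ht), hw2 t ht⟩, ?_⟩
    rw [mem_ball, Prod.dist_eq]
    exact max_lt (mem_ball.1 h5) ((mem_closedBall.1 (hw1 t ht)).trans_lt hρρ₀)
  refine ⟨t₁, δ, 2 * ‖a‖ / ‖c‖ + 1, w, hδ, fun t ht => ?_, fun t ht t' ht' => ?_⟩
  · exact ⟨(hmem t ht).1.2.1, hrR' (hmem t ht).1.2.2.1, hw2 t ht⟩
  · exact hlipZ (t, w t) (hmem t ht).2 (t', w t') (hmem t' ht').2 (hmem t ht).1 (hmem t' ht').1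

end Vale.Agent.P253.H661
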