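import Vale.Agent.P253.H661.Conv
import Vale.Agent.P253.R2.H451.Regular

/-!
P253: injective holomorphic self-maps whose iterates converge to a point: the manifold is a domain
of `ℂⁿ`, and it is `ℂⁿ` if the map is bijective.
-/

open scoped Manifold ContDiff Topology Bundle
open Set Metric Complex Filter Bundle IsManifold Manifold Asymptotics Vale.Agent.P253.S445
  Vale.Agent.P253.Mfd

set_option maxSynthPendingDepth 3
set_option linter.unusedSectionVars false

noncomputable section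

namespace Vale.Agent.P253.H661

variable {E : Type*} [NormedAddCommGroup E] [NormedSpace ℂ E] [FiniteDimensional ℂ E]
  {M : Type*} [MetricSpace M] [ChartedSpace E M] [IsManifold 𝓘(ℂ, E) 1 M]
  {p : M}

/-- injective holomorphic maps between open sets of `E` have injective differentials (Osgood) -/
def Osg (E : Type*) [NormedAddCommGroup E] [NormedSpace ℂ E] : Prop :=
  ∀ (U : Set E) (h : E → E), IsOpen U → DifferentiableOn ℂ h U → InjOn h U →
    ∀ x ∈ U, Function.Injective (fderiv ℂ h x)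

/-- local conjugation near the fixed point -/
theorem exists_localB {g : M → M} (hg : ContMDiff 𝓘(ℂ, E) 𝓘(ℂ, E) 1 g) (hp : g p = p)
    {D : E ≃L[ℂ] E} (hD : HasFDerivAt (RA E g p) (D : E →L[ℂ] E) 0) {b : ℝ}
    (hb : b < 1) (hDb : ∀ v, ‖D v‖ ≤ b * ‖v‖) :
    ∃ (V : Set M) (Λ : M → E) (δ : ℝ) (L G Gi : E → E), IsOpen V ∧ p ∈ V ∧ 0 < δ ∧
      DifferentiableOn ℂ L (ball 0 δ) ∧ L 0 = 0 ∧
      HasFDerivAt L (ContinuousLinearMap.id ℂ E) 0 ∧
      V = {x | x ∈ (chartAt E p).source ∧ chartAt E p x - chartAt E p p ∈ ball (0 : E) δ} ∧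
      (∀ x, Λ x = L (chartAt E p x - chartAt E p p)) ∧
      (∀ u ∈ ball (0 : E) δ, u + chartAt E p p ∈ (chartAt E p).target) ∧
      (∀ x ∈ V, g x ∈ V ∧ Λ (g x) = G (Λ x)) ∧
      (∀ w, Gi (G w) = w) ∧ (∀ w, G (Gi w) = w) ∧ Differentiable ℂ G ∧ Differentiable ℂ Gi ∧
      ∀ w, Tendsto (fun k : ℕ => (G^[k]) w) atTop (𝓝 0) := by
  have hCE : CompleteSpace E := FiniteDimensional.complete ℂ E
  set e := chartAt E p with he
  have hps : p ∈ e.source := mem_chart_source E p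
  set z₀ := e p with hz₀
  have hdom := ev_dom (E := E) hg.continuous hp
  have hRd : ∀ᶠ z in 𝓝 (0:E), DifferentiableAt ℂ (RA E g p) z := by
    filter_upwards [hdom] with z hz
    exact differentiableAt_RA hg hz.1 hz.2
  obtain ⟨δ, hδ, L, G, Gi, hL, hL0, hL1, hR, hLR, hGi1, hGi2, hGd, hGid, hGt⟩ :=
    local_conj (R := RA E g p) hRd (RA_zero hp) (D := D) hD hb hDb
  obtain ⟨δ₁, hδ₁, hball⟩ := Metric.eventually_nhds_iff_ball.1 hdom
  set δ' := min δ δ₁ with hδ'
  have hδ'0 : 0 < δ' := lt_min hδ hδ₁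
  have hs : ball (0:E) δ' ⊆ ball 0 δ := ball_subset_ball (min_le_left _ _)
  have hs₁ : ball (0:E) δ' ⊆ ball 0 δ₁ := ball_subset_ball (min_le_right _ _)
  refine ⟨_, fun x => L (e x - z₀), δ', L, G, Gi, ?_, ?_, hδ'0, hL.mono hs, hL0, hL1, rfl,
    fun x => rfl, fun u hu => (hball u (hs₁ hu)).1, ?_, hGi1, hGi2, hGd, hGid, hGt⟩
  · exact e.isOpen_inter_preimage ((continuous_sub_right z₀).isOpen_preimage _ isOpen_ball)
  · exact ⟨hps, by rw [sub_self]; exact mem_ball_self hδ'0⟩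
  · rintro x ⟨hx1, hx2⟩
    have h3 : (e x - z₀) + z₀ = e x := sub_add_cancel _ _
    have h4 : g x ∈ e.source := by
      have h5 := (hball _ (hs₁ hx2)).2
      rw [← he, ← hz₀, h3, e.left_inv hx1] at h5
      exact h5
    have h5 : RA E g p (e x - z₀) = e (g x) - z₀ := by
      simp only [RA]
      rw [← he, ← hz₀, h3, e.left_inv hx1]
    have h6 : ‖e (g x) - z₀‖ ≤ ‖e x - z₀‖ := by
      rw [← h5]
      exact hR _ (hs hx2)
    refine ⟨⟨h4, ?_⟩, ?_⟩
    · rw [mem_ball_zero_iff] at hx2 ⊢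
      exact h6.trans_lt hx2
    · have h7 := hLR _ (hs hx2)
      rw [h5] at h7
      exact h7

/-- the basin of attraction of a contracting fixed point of an injective map embeds into `E` -/
theorem exists_embed {g : M → M} (hg : ContMDiff 𝓘(ℂ, E) 𝓘(ℂ, E) 1 g)
    (hginj : Function.Injective g) (hp : g p = p)
    {D : E ≃L[ℂ] E} (hD : HasFDerivAt (RA E g p) (D : E →L[ℂ] E) 0) {b : ℝ}
    (hb : b < 1) (hDb : ∀ v, ‖D v‖ ≤ b * ‖v‖)
    (hbas : ∀ x, Tendsto (fun k : ℕ => (g^[k]) x) atTop (𝓝 p)) :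
    ∃ (F : M → E) (G Gi : E → E), ContMDiff 𝓘(ℂ, E) 𝓘(ℂ, E) 1 F ∧ Function.Injective F ∧
      F p = 0 ∧ (∀ x, F (g x) = G (F x)) ∧ (∀ w, Gi (G w) = w) ∧ (∀ w, G (Gi w) = w) ∧
      Differentiable ℂ G ∧ Differentiable ℂ Gi ∧
      (∀ w, Tendsto (fun k : ℕ => (G^[k]) w) atTop (𝓝 0)) ∧ range F ∈ 𝓝 (0 : E) := by
  have hCE : CompleteSpace E := FiniteDimensional.complete ℂ E
  obtain ⟨V, Λ, δ, L, G, Gi, hVo, hpV, hδ, hL, hL0, hL1, hV, hΛ, htgt, hstep1, hGi1, hGi2, hGd,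
    hGid, hGt⟩ := exists_localB hg hp hD hb hDb
  set e := chartAt E p with he
  have hem : e ∈ maximalAtlas 𝓘(ℂ, E) 1 M := chart_mem_maximalAtlas p
  have hps : p ∈ e.source := mem_chart_source E p
  set z₀ := e p with hz₀
  have hGiG : ∀ (k : ℕ) w, (Gi^[k]) ((G^[k]) w) = w := fun k w =>
    (Function.LeftInverse.iterate (f := G) (g := Gi) hGi1 k) w
  have hstep : ∀ x ∈ V, ∀ j : ℕ, (g^[j]) x ∈ V ∧ Λ ((g^[j]) x) = (G^[j]) (Λ x) := by
    intro x hx j
    induction j with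
    | zero => exact ⟨hx, rfl⟩
    | succ j ih =>
      obtain ⟨h1, h2⟩ := hstep1 _ ih.1
      rw [Function.iterate_succ_apply', Function.iterate_succ_apply']
      exact ⟨h1, by rw [h2, ih.2]⟩
  have hev : ∀ (x : M) (W : Set M), W ∈ 𝓝 p → ∀ᶠ k : ℕ in atTop, (g^[k]) x ∈ W :=
    fun x W hW => (hbas x).eventually hW
  have hVn : V ∈ 𝓝 p := hVo.mem_nhds hpV
  have hex : ∀ x, ∃ k : ℕ, (g^[k]) x ∈ V := fun x => (hev x V hVn).exists
  choose κ hκ using hex
  set F : M → E := fun x => (Gi^[κ x]) (Λ ((g^[κ x]) x)) with hFdef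
  have hshift : ∀ (x : M) (k j : ℕ), (g^[k]) x ∈ V →
      (Gi^[k + j]) (Λ ((g^[k + j]) x)) = (Gi^[k]) (Λ ((g^[k]) x)) := by
    intro x k j hk
    have h1 : (g^[k + j]) x = (g^[j]) ((g^[k]) x) := by
      rw [add_comm k j, Function.iterate_add_apply]
    rw [h1, (hstep _ hk j).2, Function.iterate_add_apply, hGiG]
  have hF : ∀ (x : M) (k : ℕ), (g^[k]) x ∈ V → F x = (Gi^[k]) (Λ ((g^[k]) x)) := by
    intro x k hk
    simp only [hFdef]
    rw [← hshift x (κ x) k (hκ x), ← hshift x k (κ x) hk, add_comm]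
  have hFV : ∀ x ∈ V, F x = Λ x := fun x hx => hF x 0 hx
  have hFj : ∀ (x : M) (j : ℕ), F ((g^[j]) x) = (G^[j]) (F x) := by
    intro x j
    obtain hk := hκ x
    set k := κ x with hkdef
    have h1 : (g^[k]) ((g^[j]) x) = (g^[j]) ((g^[k]) x) := by
      rw [← Function.iterate_add_apply, ← Function.iterate_add_apply, add_comm]
    have h2 := hstep _ hk j
    have h3 : (Gi^[k]) ((G^[j]) (Λ ((g^[k]) x))) = (G^[j]) ((Gi^[k]) (Λ ((g^[k]) x))) := by
      have hcomm : Function.Commute Gi G := fun w => by rw [hGi1, hGi2]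
      exact (hcomm.iterate_iterate k j) _
    rw [hF ((g^[j]) x) k (by rw [h1]; exact h2.1), h1, h2.2, hF x k hk, h3]
  -- smoothness
  have hgs : ∀ k : ℕ, ContMDiff 𝓘(ℂ, E) 𝓘(ℂ, E) 1 (g^[k]) := by
    intro k
    induction k with
    | zero => exact contMDiff_id
    | succ k ih => exact ih.comp hg
  have hLs : ContDiffOn ℂ ∞ L (ball 0 δ) := contDiffOn_of_differentiableOn_complex isOpen_ball hL
  have hGic : ∀ k : ℕ, ContDiff ℂ 1 (Gi^[k]) := by
    intro k
    have h1 : Differentiable ℂ (Gi^[k]) := hGid.iterate k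
    have h2 := contDiffOn_of_differentiableOn_complex isOpen_univ
      (h1.differentiableOn (s := univ))
    exact (contDiffOn_univ.1 h2).of_le (by simp)
  have hΛs : ∀ y ∈ V, ContMDiffAt 𝓘(ℂ, E) 𝓘(ℂ, E) 1 Λ y := by
    intro y hy
    rw [hV] at hy
    have h1 : ContMDiffAt 𝓘(ℂ, E) 𝓘(ℂ, E) 1 e y :=
      (contMDiffOn_of_mem_maximalAtlas hem).contMDiffAt (e.open_source.mem_nhds hy.1)
    have h2 : ContDiffAt ℂ 1 (fun w : E => L (w - z₀)) (e y) := by
      have h3 : ContDiffAt ℂ 1 L (e y - z₀) :=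
        (hLs.contDiffAt (isOpen_ball.mem_nhds hy.2)).of_le (by simp)
      exact ContDiffAt.comp (e y) (g := L) (f := fun w : E => w - z₀) h3
        (contDiffAt_id.sub contDiffAt_const)
    have h3 := h2.contMDiffAt.comp y h1
    have h4 : Λ = (fun w : E => L (w - z₀)) ∘ e := funext fun x => hΛ x
    rw [h4]
    exact h3
  have hFs : ContMDiff 𝓘(ℂ, E) 𝓘(ℂ, E) 1 F := by
    intro x
    set k := κ x with hkdef
    have hk : (g^[k]) x ∈ V := hκ x
    have hc : Continuous (g^[k]) := (hgs k).continuous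
    have h1 : ∀ᶠ y in 𝓝 x, F y = (Gi^[k]) (Λ ((g^[k]) y)) := by
      filter_upwards [(hVo.preimage hc).mem_nhds hk] with y hy
      exact hF y k hy
    have h2 : ContMDiffAt 𝓘(ℂ, E) 𝓘(ℂ, E) 1 (fun y => Λ ((g^[k]) y)) x :=
      (hΛs _ hk).comp x ((hgs k) x)
    have h3 : ContMDiffAt 𝓘(ℂ, E) 𝓘(ℂ, E) 1 (fun y => (Gi^[k]) (Λ ((g^[k]) y))) x :=
      ((hGic k).contMDiff _).comp x h2
    exact h3.congr_of_eventuallyEq h1
  -- the local inverse
  have hLc : ContDiffAt ℂ 1 L 0 :=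
    (hLs.contDiffAt (isOpen_ball.mem_nhds (mem_ball_self hδ))).of_le (by simp)
  have hL1' : HasFDerivAt L ((ContinuousLinearEquiv.refl ℂ E : E ≃L[ℂ] E) : E →L[ℂ] E) 0 := hL1
  set ℓ : OpenPartialHomeomorph E E := hLc.toOpenPartialHomeomorph L hL1' one_ne_zero with hℓ
  have hℓc : ∀ u, ℓ u = L u := fun u => rfl
  have h0s : (0 : E) ∈ ℓ.source := hLc.mem_toOpenPartialHomeomorph_source hL1' one_ne_zero
  have h0t : (0 : E) ∈ ℓ.target := by
    have h1 := hLc.image_mem_toOpenPartialHomeomorph_target hL1' one_ne_zero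
    rwa [hL0] at h1
  have hℓ0 : ℓ.symm 0 = 0 := by
    have h1 := ℓ.left_inv h0s
    rwa [hℓc, hL0] at h1
  have hgood : ∀ᶠ w in 𝓝 (0:E), w ∈ ℓ.target ∧ ℓ.symm w ∈ ball (0:E) δ := by
    have hA : ∀ᶠ w in 𝓝 (0:E), w ∈ ℓ.target := ℓ.open_target.mem_nhds h0t
    refine hA.and ?_
    have h1 := (ℓ.continuousAt_symm h0t).tendsto
    rw [hℓ0] at h1
    exact h1.eventually (ball_mem_nhds (0:E) hδ)
  -- injectivity
  have hcφ : Tendsto (fun x => e x - z₀) (𝓝 p) (𝓝 0) := by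
    have h2 := (e.continuousAt hps).tendsto.sub_const z₀
    rwa [← hz₀, sub_self] at h2
  have hinj : Function.Injective F := by
    intro x y hxy
    have hN : {x | x ∈ V ∧ e x - z₀ ∈ ℓ.source} ∈ 𝓝 p :=
      inter_mem hVn (hcφ.eventually (ℓ.open_source.mem_nhds h0s))
    obtain ⟨k, hx, hy⟩ := ((hev x _ hN).and (hev y _ hN)).exists
    have h1 : Λ ((g^[k]) x) = Λ ((g^[k]) y) := by
      rw [← hFV _ hx.1, ← hFV _ hy.1, hFj, hFj, hxy]
    rw [hΛ, hΛ] at h1
    have h2 := ℓ.injOn hx.2 hy.2 h1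
    have h3 : e ((g^[k]) x) = e ((g^[k]) y) := sub_left_injective h2
    have hx' := hx.1
    have hy' := hy.1
    rw [hV] at hx' hy'
    exact (hginj.iterate k) (e.injOn hx'.1 hy'.1 h3)
  refine ⟨F, G, Gi, hFs, hinj, ?_, fun x => hFj x 1, hGi1, hGi2, hGd, hGid, hGt, ?_⟩
  · rw [hFV p hpV, hΛ, ← hz₀, sub_self, hL0]
  · filter_upwards [hgood] with w hw
    set u := ℓ.symm w with hu
    have h4 := htgt u hw.2
    have h5 : e.symm (u + z₀) ∈ V := by
      rw [hV]
      refine ⟨e.map_target h4, ?_⟩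
      rw [e.right_inv h4, add_sub_cancel_right]
      exact hw.2
    refine ⟨e.symm (u + z₀), ?_⟩
    rw [hFV _ h5, hΛ, e.right_inv h4, add_sub_cancel_right, ← hℓc, hu, ℓ.right_inv hw.1]

/-- the differential of an injective holomorphic map at a fixed point -/
theorem exists_D_of_injective (hO : Osg E) {g : M → M} (hg : ContMDiff 𝓘(ℂ, E) 𝓘(ℂ, E) 1 g)
    (hginj : Function.Injective g) (hp : g p = p) :
    ∃ D : E ≃L[ℂ] E, HasFDerivAt (RA E g p) (D : E →L[ℂ] E) 0 := by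
  have hCE : CompleteSpace E := FiniteDimensional.complete ℂ E
  obtain ⟨δ, hδ, hball⟩ := Metric.eventually_nhds_iff_ball.1 (ev_dom (E := E) hg.continuous hp)
  have h1 : Function.Injective (fderiv ℂ (RA E g p) 0) := by
    refine hO (ball 0 δ) (RA E g p) isOpen_ball (fun u hu => ?_) ?_ 0 (mem_ball_self hδ)
    · exact (differentiableAt_RA hg (hball u hu).1 (hball u hu).2).differentiableWithinAt
    · intro u hu v hv huv
      have h2 := (chartAt E p).injOn (hball u hu).2 (hball v hv).2 (sub_left_injective huv)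
      have h3 := (chartAt E p).symm.injOn (hball u hu).1 (hball v hv).1 (hginj h2)
      exact add_left_injective _ h3
  have hbij : Function.Bijective (fderiv ℂ (RA E g p) 0 : E →ₗ[ℂ] E) :=
    ⟨h1, LinearMap.injective_iff_surjective.1 h1⟩
  refine ⟨(LinearEquiv.ofBijective (fderiv ℂ (RA E g p) 0 : E →ₗ[ℂ] E)
    hbij).toContinuousLinearEquiv, ?_⟩
  have hAe : ((LinearEquiv.ofBijective (fderiv ℂ (RA E g p) 0 : E →ₗ[ℂ] E)
    hbij).toContinuousLinearEquiv : E →L[ℂ] E) = fderiv ℂ (RA E g p) 0 := by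
    ext v; rfl
  rw [hAe]
  exact hasFDerivAt_RA hg hp

/-- an injective holomorphic map `M → E` is a chart -/
theorem exists_chart_of_injective (hO : Osg E) {F : M → E}
    (hF : ContMDiff 𝓘(ℂ, E) 𝓘(ℂ, E) 1 F) (hinj : Function.Injective F) [Nonempty M] :
    ∃ e ∈ maximalAtlas 𝓘(ℂ, E) 1 M, e.source = univ ∧ e.target = range F ∧ ∀ x, e x = F x := by
  have hmd : MDifferentiable 𝓘(ℂ, E) 𝓘(ℂ, E) F := hF.mdifferentiable (by simp)
  have hloc : IsLocalDiffeomorph 𝓘(ℂ, E) 𝓘(ℂ, E) 1 F := by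
    intro x
    refine (R2.H451.isLocalDiffeomorphAt_of_mem_reg hmd ?_).1
    have hem : chartAt E x ∈ maximalAtlas 𝓘(ℂ, E) 1 M := chart_mem_maximalAtlas x
    rw [R2.H451.mfderiv_eq_chart hmd hem (mem_chart_source E x)]
    refine hO _ _ (chartAt E x).open_target (R2.H451.differentiableOn_chart hmd hem) ?_ _
      ((chartAt E x).map_source (mem_chart_source E x))
    intro u hu v hv huv
    exact (chartAt E x).symm.injOn hu hv (hinj huv)
  have hemb : Topology.IsOpenEmbedding F :=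
    Topology.IsOpenEmbedding.of_continuous_injective_isOpenMap hF.continuous hinj
      hloc.isOpenMap
  set e := hemb.toOpenPartialHomeomorph F with he
  have hea : ∀ x, e x = F x := fun x => rfl
  have hes : e.source = univ := rfl
  have het : e.target = range F := by
    rw [he, Topology.IsOpenEmbedding.toOpenPartialHomeomorph_target]
  refine ⟨e, ?_, hes, het, hea⟩
  apply R2.H922.mem_maximalAtlas_of_contMDiffOn
  · exact hF.contMDiffOn
  · intro w hw
    rw [het] at hw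
    obtain ⟨x, rfl⟩ := hw
    obtain ⟨Ψ, hx, hΨ⟩ := hloc x
    have h1 : F x ∈ Ψ.target := by
      rw [hΨ hx]
      exact Ψ.map_source hx
    have h2 : ContMDiffAt 𝓘(ℂ, E) 𝓘(ℂ, E) 1 Ψ.symm (F x) :=
      Ψ.contMDiffOn_invFun.contMDiffAt (Ψ.open_target.mem_nhds h1)
    refine (h2.congr_of_eventuallyEq ?_).contMDiffWithinAt
    filter_upwards [Ψ.open_target.mem_nhds h1] with w hw
    apply hinj
    have h3 : Ψ.symm w ∈ Ψ.source := Ψ.map_target hw
    have h4 : F (Ψ.symm w) = w := by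
      rw [hΨ h3]
      exact Ψ.right_inv hw
    have h5 : w ∈ e.target := by
      rw [het, ← h4]
      exact mem_range_self _
    rw [h4, ← hea]
    exact e.right_inv h5

/-- **injective holomorphic self-maps which attract to a point**: `M` is a domain of `E`, on which
an iterate of the map is the restriction of a contracting automorphism of `E`; if the map is
surjective, then `M` is `E`. -/
theorem exists_domain (hO : Osg E) {f : M → M} (hf : MDifferentiable 𝓘(ℂ, E) 𝓘(ℂ, E) f)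
    (hinj : Function.Injective f) (hp : f p = p)
    (hc : ∀ C : Set M, IsCompact C → ∀ W ∈ 𝓝 p, ∀ᶠ k : ℕ in atTop, ∀ x ∈ C, f^[k] x ∈ W) :
    ∃ e ∈ maximalAtlas 𝓘(ℂ, E) 1 M, e.source = univ ∧ e p = 0 ∧
      (∃ N : ℕ, 0 < N ∧ ∃ G Gi : E → E, Differentiable ℂ G ∧ Differentiable ℂ Gi ∧
        (∀ w, Gi (G w) = w) ∧ (∀ w, G (Gi w) = w) ∧
        (∀ w, Tendsto (fun k : ℕ => G^[k] w) atTop (𝓝 0)) ∧
        (∀ x, e (f^[N] x) = G (e x)) ∧ ∀ w, ∃ k : ℕ, G^[k] w ∈ e.target) ∧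
      (Function.Surjective f → e.target = univ) := by
  have hf1 : ContMDiff 𝓘(ℂ, E) 𝓘(ℂ, E) 1 f := fun x =>
    contMDiffAt_of_mdiff isOpen_univ (mem_univ x) fun y _ => hf y
  have hatt : Attracts f p := hc
  have : LocallyCompactSpace E := by
    have : ProperSpace E := FiniteDimensional.proper ℂ E
    infer_instance
  have : LocallyCompactSpace M := ChartedSpace.locallyCompactSpace E M
  obtain ⟨N, hN, hcN⟩ := exists_contrA (E := E) hf1 hatt.exists_nhds hatt.tendsto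
  have hgs : ContMDiff 𝓘(ℂ, E) 𝓘(ℂ, E) 1 (f^[N]) := by
    have h : ∀ k : ℕ, ContMDiff 𝓘(ℂ, E) 𝓘(ℂ, E) 1 (f^[k]) := by
      intro k
      induction k with
      | zero => exact contMDiff_id
      | succ k ih => exact ih.comp hf1
    exact h N
  have hpN : f^[N] p = p := Function.iterate_fixed hp N
  obtain ⟨D, hD⟩ := exists_D_of_injective hO hgs (hinj.iterate N) hpN
  have hDb : ∀ v, ‖D v‖ ≤ 1 / 4 * ‖v‖ := by
    intro v
    have h1 := hcN v
    rw [hD.fderiv] at h1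
    exact h1
  have hbasN : ∀ x, Tendsto (fun k : ℕ => ((f^[N])^[k]) x) atTop (𝓝 p) := by
    intro x
    have h1 : (fun k : ℕ => ((f^[N])^[k]) x) = fun k : ℕ => (f^[N * k]) x := by
      funext k
      rw [← Function.iterate_mul]
    rw [h1]
    exact (hatt.tendsto x).comp (tendsto_id.const_mul_atTop' hN)
  obtain ⟨F, G, Gi, hFs, hFinj, hFp, hFG, hGi1, hGi2, hGd, hGid, hGt, hFn⟩ :=
    exists_embed hgs (hinj.iterate N) hpN hD (by norm_num) hDb hbasN
  have : Nonempty M := ⟨p⟩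
  obtain ⟨e, heM, hes, het, hea⟩ := exists_chart_of_injective hO hFs hFinj
  have hcov : ∀ w, ∃ k : ℕ, G^[k] w ∈ e.target := by
    intro w
    rw [het]
    exact ((hGt w).eventually hFn).exists
  refine ⟨e, heM, hes, by rw [hea, hFp], ⟨N, hN, G, Gi, hGd, hGid, hGi1, hGi2, hGt,
    fun x => by rw [hea, hea]; exact hFG x, hcov⟩, fun hsurj => ?_⟩
  rw [eq_univ_iff_forall]
  intro w
  obtain ⟨k, hk⟩ := hcov w
  have hback : ∀ z, G z ∈ e.target → z ∈ e.target := by
    intro z hz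
    rw [het] at hz ⊢
    obtain ⟨y, hy⟩ := hz
    obtain ⟨x, rfl⟩ := (hsurj.iterate N) y
    rw [hFG] at hy
    refine ⟨x, ?_⟩
    rw [← hGi1 (F x), hy, hGi1]
  clear hcov
  induction k with
  | zero => exact hk
  | succ k ih =>
    rw [Function.iterate_succ_apply'] at hk
    exact ih (hback _ hk)

end Vale.Agent.P253.H661
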