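import Vale.Agent.P253.H661.Core
import Vale.Agent.P253.R2.H451.Regular
import Vale.Agent.P153.R2.L1.HMax
import Mathlib.Analysis.LocallyConvex.SeparatingDual

/-!
P253: injective holomorphic maps between open sets of complex vector spaces of the same dimension
have injective differentials (Osgood).
-/

open scoped ContDiff Topology
open Set Metric Complex Filter Module

set_option maxSynthPendingDepth 3
set_option linter.unusedSectionVars false

noncomputable section

namespace Vale.Agent.P253.H661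

open Vale.Agent.P253.Mfd

section one

variable {E F : Type*} [NormedAddCommGroup E] [NormedSpace ℂ E] [FiniteDimensional ℂ E]
  [NormedAddCommGroup F] [NormedSpace ℂ F] [FiniteDimensional ℂ F]

/-- the case of one variable -/
theorem fderiv_ne_zero_one (hE : finrank ℂ E = 1) (hF : finrank ℂ F = 1) {U : Set E}
    (hU : IsOpen U) {f : E → F} (hf : DifferentiableOn ℂ f U) (hinj : InjOn f U) {x : E}
    (hx : x ∈ U) : fderiv ℂ f x ≠ 0 := by
  have hCF : CompleteSpace F := FiniteDimensional.complete ℂ F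
  have hnt : Nontrivial E := Module.nontrivial_of_finrank_pos (R := ℂ) (by omega)
  obtain ⟨v, hv⟩ := exists_ne (0 : E)
  set T : F ≃L[ℂ] ℂ := ContinuousLinearEquiv.ofFinrankEq (by rw [hF, finrank_self]) with hT
  set L : ℂ → E := fun ζ => x + ζ • v with hL
  have hLd : ∀ ζ, HasDerivAt L v ζ := by
    intro ζ
    have h1 : HasDerivAt (fun ζ : ℂ => ζ • v) ((1:ℂ) • v) ζ := (hasDerivAt_id ζ).smul_const v
    rw [one_smul] at h1
    exact h1.const_add x
  have hLc : Continuous L := by fun_prop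
  have hLinj : Function.Injective L := by
    intro a b hab
    have h1 : a • v = b • v := add_left_cancel hab
    exact smul_left_injective ℂ hv h1
  have hVo : IsOpen (L ⁻¹' U) := hU.preimage hLc
  have h0V : (0:ℂ) ∈ L ⁻¹' U := by
    simp only [mem_preimage, hL, zero_smul, add_zero]
    exact hx
  have hder : ∀ ζ ∈ L ⁻¹' U, HasDerivAt (fun ζ => T (f (L ζ))) (T (fderiv ℂ f (L ζ) v)) ζ := by
    intro ζ hζ
    have h1 : HasFDerivAt f (fderiv ℂ f (L ζ)) (L ζ) :=
      (hf.differentiableAt (hU.mem_nhds hζ)).hasFDerivAt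
    have h2 : HasDerivAt (fun ζ => f (L ζ)) (fderiv ℂ f (L ζ) v) ζ :=
      h1.comp_hasDerivAt ζ (hLd ζ)
    exact (T : F →L[ℂ] ℂ).hasFDerivAt.comp_hasDerivAt ζ h2
  have h1 := Vale.Agent.P153.R2.L1.injOn_deriv_ne_zero (f := fun ζ => T (f (L ζ))) hVo
    (fun ζ hζ => (hder ζ hζ).differentiableAt.differentiableWithinAt)
    (fun a ha b hb hab => hLinj (hinj ha hb (T.injective hab))) h0V
  rw [(hder 0 h0V).deriv] at h1
  intro h0
  apply h1
  have h2 : L 0 = x := by simp [hL]
  rw [h2, h0]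
  simp

end one

section many

variable {E F : Type*} [NormedAddCommGroup E] [NormedSpace ℂ E] [FiniteDimensional ℂ E]
  [NormedAddCommGroup F] [NormedSpace ℂ F] [FiniteDimensional ℂ F]

theorem differentiableOn_prod {ι : Type*} {U : Set E} (s : Finset ι) {g : ι → E → ℂ}
    (h : ∀ i, DifferentiableOn ℂ (g i) U) : DifferentiableOn ℂ (fun x => ∏ i ∈ s, g i x) U := by
  classical
  induction s using Finset.induction_on with
  | empty =>
    simp only [Finset.prod_empty]
    exact differentiableOn_const 1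
  | insert a s ha ih =>
    simp only [Finset.prod_insert ha]
    exact (h a).mul ih

/-- the Jacobian -/
theorem exists_jacobian (hEF : finrank ℂ E = finrank ℂ F) {U : Set E}
    (hU : IsOpen U) {f : E → F} (hf : DifferentiableOn ℂ f U) :
    ∃ J : E → ℂ, DifferentiableOn ℂ J U ∧ ∀ x, J x = 0 ↔ ¬ Function.Injective (fderiv ℂ f x) := by
  have hCF : CompleteSpace F := FiniteDimensional.complete ℂ F
  set T : F ≃L[ℂ] E := ContinuousLinearEquiv.ofFinrankEq hEF.symm with hT
  set b := finBasis ℂ E with hb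
  have hfd : DifferentiableOn ℂ (fderiv ℂ f) U :=
    ((contDiffOn_of_differentiableOn_complex hU hf).fderiv_of_isOpen hU
      (m := ∞) (by simp)).differentiableOn (by simp)
  set A : E → E →ₗ[ℂ] E := fun x =>
    ((T : F →L[ℂ] E).comp (fderiv ℂ f x) : E →L[ℂ] E) with hA
  refine ⟨fun x => (LinearMap.toMatrix b b (A x)).det, ?_, fun x => ?_⟩
  · have hent : ∀ i j, DifferentiableOn ℂ (fun x => LinearMap.toMatrix b b (A x) i j) U := by
      intro i j
      have h1 : ∀ x, LinearMap.toMatrix b b (A x) i j = b.repr (T (fderiv ℂ f x (b j))) i := by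
        intro x
        rw [LinearMap.toMatrix_apply]
        rfl
      simp only [h1]
      have h2 : DifferentiableOn ℂ (fun x => fderiv ℂ f x (b j)) U :=
        hfd.clm_apply (differentiableOn_const _)
      have h3 : Differentiable ℂ (fun w : F => b.repr (T w) i) := by
        have h4 : (fun w : F => b.repr (T w) i) =
            ((LinearMap.toContinuousLinearMap ((b.coord i) ∘ₗ (T : F →L[ℂ] E).toLinearMap) :
              F →L[ℂ] ℂ) : F → ℂ) := by
          funext w
          rfl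
        rw [h4]
        exact ContinuousLinearMap.differentiable _
      exact h3.comp_differentiableOn h2
    simp only [Matrix.det_apply]
    refine DifferentiableOn.fun_sum fun σ _ => ?_
    refine DifferentiableOn.const_smul ?_ _
    exact differentiableOn_prod _ fun i => hent _ _
  · change (LinearMap.toMatrix b b (A x)).det = 0 ↔ _
    rw [LinearMap.det_toMatrix]
    constructor
    · intro h0 hinj
      have h1 : Function.Injective (A x) := by
        intro v w hvw
        exact hinj (T.injective hvw)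
      have h2 : LinearMap.ker (A x) = ⊥ := LinearMap.ker_eq_bot.2 h1
      have h3 := LinearMap.isUnit_iff_ker_eq_bot (A x) |>.2 h2
      have h4 := LinearMap.isUnit_det (A x) h3
      rw [h0] at h4
      exact not_isUnit_zero h4
    · intro hni
      by_contra h0
      apply hni
      have h1 : IsUnit (LinearMap.det (A x)) := isUnit_iff_ne_zero.2 h0
      have h2 := LinearMap.isUnit_iff_isUnit_det (A x) |>.2 h1
      have h3 : LinearMap.ker (A x) = ⊥ := (LinearMap.isUnit_iff_ker_eq_bot (A x)).1 h2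
      intro v w hvw
      exact LinearMap.ker_eq_bot.1 h3 (congrArg T hvw)

/-- the critical case -/
theorem fderiv_ne_zero_of_dich (hEF : finrank ℂ E = finrank ℂ F) (h2 : 2 ≤ finrank ℂ E)
    {U : Set E} (hU : IsOpen U) {f : E → F} (hf : DifferentiableOn ℂ f U) (hinj : InjOn f U)
    (hdich : ∀ x ∈ U, fderiv ℂ f x ≠ 0 → Function.Injective (fderiv ℂ f x)) {z₀ : E}
    (hz₀ : z₀ ∈ U) : fderiv ℂ f z₀ ≠ 0 := by
  intro hz0
  have hCF : CompleteSpace F := FiniteDimensional.complete ℂ F
  have hnt : Nontrivial E := Module.nontrivial_of_finrank_pos (R := ℂ) (by omega)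
  obtain ⟨J, hJ, hJ0⟩ := exists_jacobian hEF hU hf
  have hni : ∀ x, fderiv ℂ f x = 0 → J x = 0 := by
    intro x hx
    rw [hJ0, hx]
    intro hi
    obtain ⟨v, hv⟩ := exists_ne (0 : E)
    exact hv (hi (by simp))
  have hJd : ∀ x ∈ U, J x = 0 → fderiv ℂ f x = 0 := by
    intro x hx h
    by_contra hne
    exact (hJ0 x).1 h (hdich x hx hne)
  obtain ⟨ε, hε, hball⟩ := Metric.isOpen_iff.1 hU z₀ hz₀
  -- a point with nonzero Jacobian
  obtain ⟨z₁, hz₁, hJ₁⟩ : ∃ z₁ ∈ ball z₀ (ε / 4), J z₁ ≠ 0 := by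
    by_contra hcon
    push Not at hcon
    have hs : ball z₀ (ε / 4) ⊆ U := (ball_subset_ball (by linarith)).trans hball
    have h1 : ∀ y ∈ ball z₀ (ε / 4), f y = f z₀ := by
      intro y hy
      refine isOpen_ball.is_const_of_fderiv_eq_zero (𝕜 := ℂ) (convex_ball z₀ _).isPreconnected
        (hf.mono hs) (fun x hx => ?_) hy (mem_ball_self (by positivity))
      exact hJd x (hs hx) (hcon x hx)
    obtain ⟨v, hv⟩ := exists_ne (0 : E)
    have hv0 : 0 < ‖v‖ := norm_pos_iff.2 hv
    set s : ℂ := ((ε / 8 / ‖v‖ : ℝ) : ℂ) with hs'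
    have hsn : ‖s • v‖ = ε / 8 := by
      rw [norm_smul, hs', Complex.norm_real, Real.norm_of_nonneg (by positivity)]
      field_simp
    have h2 : z₀ + s • v ∈ ball z₀ (ε / 4) := by
      rw [mem_ball, dist_eq_norm, add_sub_cancel_left, hsn]
      linarith
    have h3 := hinj (hs h2) hz₀ (h1 _ h2)
    have h4 : s • v = 0 := by simpa using h3
    rw [h4, norm_zero] at hsn
    linarith
  set v := z₁ - z₀ with hv
  have hvn : ‖v‖ < ε / 4 := by
    rw [hv, ← dist_eq_norm]
    exact mem_ball.1 hz₁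
  -- an independent direction
  obtain ⟨u, hun, hlin⟩ : ∃ u : E, ‖u‖ < ε / 4 ∧ ∀ a b : ℂ, a • u + b • v = 0 → a = 0 := by
    have h1 : (Submodule.span ℂ {v} : Submodule ℂ E) ≠ ⊤ := by
      intro htop
      have hv0 : v ≠ 0 := by
        intro h
        have h4 : z₁ = z₀ := sub_eq_zero.1 h
        rw [h4] at hJ₁
        exact hJ₁ (hni z₀ hz0)
      have h3 := finrank_span_singleton (K := ℂ) hv0
      rw [htop, finrank_top] at h3
      omega
    obtain ⟨u₀, hu₀⟩ : ∃ u₀ : E, u₀ ∉ Submodule.span ℂ {v} := by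
      by_contra hcon
      push Not at hcon
      exact h1 (Submodule.eq_top_iff'.2 hcon)
    have hu₀0 : u₀ ≠ 0 := fun h => hu₀ (h ▸ Submodule.zero_mem _)
    have hn0 : 0 < ‖u₀‖ := norm_pos_iff.2 hu₀0
    have hs0 : (ε / 8 / ‖u₀‖ : ℝ) ≠ 0 := by positivity
    refine ⟨((ε / 8 / ‖u₀‖ : ℝ) : ℂ) • u₀, ?_, fun a b hab => ?_⟩
    · rw [norm_smul, Complex.norm_real, Real.norm_of_nonneg (by positivity)]
      have : ε / 8 / ‖u₀‖ * ‖u₀‖ = ε / 8 := by field_simp
      rw [this]
      linarith
    · by_contra ha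
      apply hu₀
      rw [smul_smul] at hab
      set c := a * ((ε / 8 / ‖u₀‖ : ℝ) : ℂ) with hc
      have hc0 : c ≠ 0 := mul_ne_zero ha (by exact_mod_cast hs0)
      rw [Submodule.mem_span_singleton]
      refine ⟨-(c⁻¹ * b), ?_⟩
      have h4 : c • u₀ = -(b • v) := eq_neg_of_add_eq_zero_left hab
      have h5 : u₀ = c⁻¹ • (c • u₀) := by rw [smul_smul, inv_mul_cancel₀ hc0, one_smul]
      rw [h5, h4]
      module
  -- the function of two variables
  set Q : ℂ × ℂ → E := fun y => z₀ + y.1 • u + y.2 • v with hQ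
  have hQd : Differentiable ℂ Q := by
    intro y
    simp only [hQ]
    fun_prop
  have hQU : ∀ y ∈ ball (0:ℂ) 2 ×ˢ ball (0:ℂ) 2, Q y ∈ U := by
    intro y hy
    apply hball
    rw [mem_ball, dist_eq_norm]
    have h1 : Q y - z₀ = y.1 • u + y.2 • v := by
      simp only [hQ]
      abel
    have h3 := mem_ball_zero_iff.1 hy.1
    have h4 := mem_ball_zero_iff.1 hy.2
    rw [h1]
    calc ‖y.1 • u + y.2 • v‖ ≤ ‖y.1 • u‖ + ‖y.2 • v‖ := norm_add_le _ _
      _ = ‖y.1‖ * ‖u‖ + ‖y.2‖ * ‖v‖ := by rw [norm_smul, norm_smul]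
      _ ≤ 2 * ‖u‖ + 2 * ‖v‖ := by gcongr
      _ < ε := by linarith
  obtain ⟨t₁, δ, C, w, hδ, hw, hlip⟩ := exists_root (R := 2) (H := fun y => J (Q y))
    (hJ.comp hQd.differentiableOn hQU) (by simp only [hQ, zero_smul, add_zero]; exact hni z₀ hz0)
    (w₀ := 1) (by rw [mem_ball_zero_iff]; norm_num) (by
      simp only [hQ, zero_smul, add_zero, one_smul, hv, add_sub_cancel]
      exact hJ₁)
  set P : ℂ → E := fun t => Q (t, w t) with hP
  have hPU : ∀ t ∈ ball t₁ δ, P t ∈ U := fun t ht => hQU _ ⟨(hw t ht).1, (hw t ht).2.1⟩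
  have hP0 : ∀ t ∈ ball t₁ δ, fderiv ℂ f (P t) = 0 := fun t ht =>
    hJd _ (hPU t ht) (hw t ht).2.2
  have hPlip : ∀ t ∈ ball t₁ δ, ∀ s ∈ ball t₁ δ, ‖P s - P t‖ ≤ (‖u‖ + C * ‖v‖) * ‖s - t‖ := by
    intro t ht s hs
    have h1 : P s - P t = (s - t) • u + (w s - w t) • v := by
      simp only [hP, hQ]
      module
    rw [h1]
    calc ‖(s - t) • u + (w s - w t) • v‖ ≤ ‖(s - t) • u‖ + ‖(w s - w t) • v‖ := norm_add_le _ _
      _ = ‖s - t‖ * ‖u‖ + ‖w s - w t‖ * ‖v‖ := by rw [norm_smul, norm_smul]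
      _ ≤ ‖s - t‖ * ‖u‖ + (C * ‖s - t‖) * ‖v‖ := by
        have := hlip s hs t ht
        gcongr
      _ = _ := by ring
  have hΦ : ∀ t ∈ ball t₁ δ, HasDerivAt (fun t => f (P t)) 0 t := by
    intro t ht
    have hO : (fun s => P s - P t) =O[𝓝 t] fun s => s - t := by
      refine Asymptotics.IsBigO.of_bound (‖u‖ + C * ‖v‖) ?_
      filter_upwards [isOpen_ball.mem_nhds ht] with s hs using hPlip t ht s hs
    have hc : Tendsto P (𝓝 t) (𝓝 (P t)) := by
      have h1 : Tendsto (fun s => s - t) (𝓝 t) (𝓝 0) := by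
        have h3 : Continuous fun s : ℂ => s - t := by fun_prop
        have h4 := h3.tendsto t
        rwa [sub_self] at h4
      have h2 := hO.trans_tendsto h1
      have h3 := h2.add_const (P t)
      simpa using h3
    have h1 : HasFDerivAt f (0 : E →L[ℂ] F) (P t) := by
      rw [← hP0 t ht]
      exact (hf.differentiableAt (hU.mem_nhds (hPU t ht))).hasFDerivAt
    rw [hasDerivAt_iff_isLittleO]
    have h3 := (hasFDerivAt_iff_isLittleO.1 h1).comp_tendsto hc
    simp only [Function.comp_def, _root_.zero_apply, sub_zero] at h3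
    simp only [smul_zero, sub_zero]
    exact h3.trans_isBigO hO
  have hconst : ∀ t ∈ ball t₁ δ, f (P t) = f (P t₁) := by
    intro t ht
    refine isOpen_ball.is_const_of_deriv_eq_zero (𝕜 := ℂ) (convex_ball t₁ δ).isPreconnected
      (fun s hs => (hΦ s hs).differentiableAt.differentiableWithinAt)
      (fun s hs => (hΦ s hs).deriv) ht (mem_ball_self hδ)
  have ht2 : t₁ + ((δ / 2 : ℝ) : ℂ) ∈ ball t₁ δ := by
    rw [mem_ball, dist_eq_norm, add_sub_cancel_left, Complex.norm_real,
      Real.norm_of_nonneg (by positivity)]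
    linarith
  have h3 := hinj (hPU _ ht2) (hPU _ (mem_ball_self hδ)) (hconst _ ht2)
  have h4 : ((δ / 2 : ℝ) : ℂ) • u + (w (t₁ + ((δ / 2 : ℝ) : ℂ)) - w t₁) • v = 0 := by
    have h5 : P (t₁ + ((δ / 2 : ℝ) : ℂ)) - P t₁ =
        ((δ / 2 : ℝ) : ℂ) • u + (w (t₁ + ((δ / 2 : ℝ) : ℂ)) - w t₁) • v := by
      simp only [hP, hQ]
      module
    rw [← h5, h3, sub_self]
  have h5 := hlin _ _ h4
  have h6 : (δ / 2 : ℝ) = 0 := by exact_mod_cast h5
  linarith

end many

end Vale.Agent.P253.H661
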