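import Vale.Agent.P253.H661.Osg
import Vale.Agent.P253.H661.Bij

/-!
P253: injective holomorphic maps between open sets of complex vector spaces of the same dimension
have injective differentials (Osgood): induction on the dimension.
-/

open scoped ContDiff Topology
open Set Metric Complex Filter Module

set_option maxSynthPendingDepth 3
set_option linter.unusedSectionVars false

noncomputable section

namespace Vale.Agent.P253.H661

open Vale.Agent.P253.Mfd

universe u v

section slice

variable {E : Type u} {F : Type v} [NormedAddCommGroup E] [NormedSpace ℂ E]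
  [FiniteDimensional ℂ E] [NormedAddCommGroup F] [NormedSpace ℂ F] [FiniteDimensional ℂ F]

/-- injective differentials in dimension `n` -/
def OsgN (n : ℕ) : Prop :=
  ∀ (E : Type u) (F : Type v) [NormedAddCommGroup E] [NormedSpace ℂ E]
    [NormedAddCommGroup F] [NormedSpace ℂ F] [FiniteDimensional ℂ E] [FiniteDimensional ℂ F],
    finrank ℂ E = n → finrank ℂ F = n → ∀ (U : Set E) (f : E → F), IsOpen U →
      DifferentiableOn ℂ f U → InjOn f U → ∀ x ∈ U, Function.Injective (fderiv ℂ f x)

/-- the slice step -/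
theorem slice {n : ℕ} (ih : OsgN.{u, v} n) (hE : finrank ℂ E = n + 1)
    (hF : finrank ℂ F = n + 1) {U : Set E} {f : E → F} (hU : IsOpen U)
    (hf : DifferentiableOn ℂ f U) (hinj : InjOn f U) {x : E} (hx : x ∈ U)
    (hne : fderiv ℂ f x ≠ 0) : Function.Injective (fderiv ℂ f x) := by
  have hCE : CompleteSpace E := FiniteDimensional.complete ℂ E
  have hCF : CompleteSpace F := FiniteDimensional.complete ℂ F
  set A : E →L[ℂ] F := fderiv ℂ f x with hA
  obtain ⟨v, hv⟩ : ∃ v, A v ≠ 0 := by
    by_contra hcon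
    push Not at hcon
    exact hne (ContinuousLinearMap.ext hcon)
  obtain ⟨ℓ, hℓ⟩ := SeparatingDual.exists_eq_one (R := ℂ) hv
  set lam : E →L[ℂ] ℂ := ℓ.comp A with hlam
  have hlamv : lam v = 1 := hℓ
  -- the change of coordinates
  set Ψ : E → E := fun z => (z - x) + (ℓ (f z) - ℓ (f x) - lam (z - x)) • v with hΨ
  have hΨder : ∀ z ∈ U, HasFDerivAt Ψ (ContinuousLinearMap.id ℂ E +
      (ℓ.comp (fderiv ℂ f z) - lam).smulRight v) z := by
    intro z hz
    have h1 : HasFDerivAt f (fderiv ℂ f z) z := (hf.differentiableAt (hU.mem_nhds hz)).hasFDerivAt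
    have h2 : HasFDerivAt (fun z => ℓ (f z)) (ℓ.comp (fderiv ℂ f z)) z :=
      ℓ.hasFDerivAt.comp z h1
    have h3 : HasFDerivAt (fun z : E => z - x) (ContinuousLinearMap.id ℂ E) z :=
      (hasFDerivAt_id z).sub_const x
    have h4 : HasFDerivAt (fun z : E => lam (z - x)) lam z := by
      have h5 := lam.hasFDerivAt.comp z h3
      rwa [ContinuousLinearMap.comp_id] at h5
    have h5 : HasFDerivAt (fun z => ℓ (f z) - ℓ (f x) - lam (z - x))
        (ℓ.comp (fderiv ℂ f z) - lam) z := (h2.sub_const _).sub h4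
    exact h3.add (h5.smul_const v)
  have hΨx : HasFDerivAt Ψ ((ContinuousLinearEquiv.refl ℂ E : E ≃L[ℂ] E) : E →L[ℂ] E) x := by
    have h1 := hΨder x hx
    have h2 : ContinuousLinearMap.id ℂ E + (ℓ.comp (fderiv ℂ f x) - lam).smulRight v =
        ((ContinuousLinearEquiv.refl ℂ E : E ≃L[ℂ] E) : E →L[ℂ] E) := by
      rw [← hA, ← hlam, sub_self]
      ext w
      simp
    rwa [h2] at h1
  have hΨinj : Function.Injective (fderiv ℂ Ψ x) := by
    rw [hΨx.fderiv]
    exact fun a b hab => hab
  obtain ⟨S, hxS, hSU, hSΨ, -, hSsm⟩ := R2.H451.exists_inverse_chart' hU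
    (fun z hz => (hΨder z hz).differentiableAt.differentiableWithinAt) hx hΨinj
  have hΨ0 : Ψ x = 0 := by simp [hΨ]
  have h0t : (0:E) ∈ S.target := by
    have h1 := S.map_source hxS
    rwa [hSΨ, hΨ0] at h1
  have hS0 : S.symm 0 = x := by
    have h1 := S.left_inv hxS
    rwa [hSΨ, hΨ0] at h1
  have hQder : HasFDerivAt S.symm (ContinuousLinearMap.id ℂ E) 0 := by
    have h1 : HasFDerivAt S ((ContinuousLinearEquiv.refl ℂ E : E ≃L[ℂ] E) : E →L[ℂ] E)
        (S.symm 0) := by
      rw [hS0]
      exact hΨx.congr_of_eventuallyEq (Eventually.of_forall hSΨ)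
    exact S.hasFDerivAt_symm h0t h1
  -- the conjugated map
  set g : E → F := fun y => f (S.symm y) - f x with hg
  have hgl : ∀ y ∈ S.target, ℓ (g y) = lam y := by
    intro y hy
    have h1 := S.right_inv hy
    rw [hSΨ] at h1
    have h2 : lam (Ψ (S.symm y)) = ℓ (f (S.symm y)) - ℓ (f x) := by
      simp only [hΨ, map_add, map_smul, smul_eq_mul, hlamv]
      ring
    rw [h1] at h2
    rw [h2, hg, map_sub]
  have hgd : DifferentiableOn ℂ g S.target := by
    intro y hy
    have h1 : DifferentiableAt ℂ S.symm y := (hSsm y hy).differentiableAt (by simp)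
    have h2 : DifferentiableAt ℂ f (S.symm y) :=
      hf.differentiableAt (hU.mem_nhds (hSU (S.map_target hy)))
    exact ((h2.comp y h1).sub_const _).differentiableWithinAt
  have hginj : InjOn g S.target := by
    intro a ha b hb hab
    have h1 : f (S.symm a) = f (S.symm b) := sub_left_injective hab
    exact S.symm.injOn ha hb (hinj (hSU (S.map_target ha)) (hSU (S.map_target hb)) h1)
  have hgder : HasFDerivAt g A 0 := by
    have h1 : HasFDerivAt f A (S.symm 0) := by
      rw [hS0]
      exact (hf.differentiableAt (hU.mem_nhds hx)).hasFDerivAt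
    have h2 := (h1.comp (0:E) hQder).sub_const (f x)
    rwa [ContinuousLinearMap.comp_id] at h2
  -- the slice
  set E' : Submodule ℂ E := LinearMap.ker (lam : E →ₗ[ℂ] ℂ) with hE'
  set F' : Submodule ℂ F := LinearMap.ker (ℓ : F →ₗ[ℂ] ℂ) with hF'
  have hlam0 : (lam : E →ₗ[ℂ] ℂ) ≠ 0 := by
    intro h
    have h1 : (lam : E →ₗ[ℂ] ℂ) v = 0 := by rw [h]; rfl
    exact one_ne_zero (hlamv.symm.trans h1)
  have hℓ0 : (ℓ : F →ₗ[ℂ] ℂ) ≠ 0 := by
    intro h
    have h1 : (ℓ : F →ₗ[ℂ] ℂ) (A v) = 0 := by rw [h]; rfl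
    exact one_ne_zero (hℓ.symm.trans h1)
  have hrE : finrank ℂ E' = n := by
    have h1 := Module.Dual.finrank_ker_add_one_of_ne_zero (K := ℂ) (V₁ := E) hlam0
    rw [hE] at h1
    exact Nat.succ_injective h1
  have hrF : finrank ℂ F' = n := by
    have h1 := Module.Dual.finrank_ker_add_one_of_ne_zero (K := ℂ) (V₁ := F) hℓ0
    rw [hF] at h1
    exact Nat.succ_injective h1
  set π₀ : F →L[ℂ] F := ContinuousLinearMap.id ℂ F - ℓ.smulRight (A v) with hπ₀
  have hπmem : ∀ y, π₀ y ∈ F' := by
    intro y
    rw [hF', LinearMap.mem_ker]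
    change ℓ (π₀ y) = 0
    simp [hπ₀, hℓ]
  set π : F →L[ℂ] F' := π₀.codRestrict F' hπmem with hπ
  have hπv : ∀ y, ℓ y = 0 → ((π y : F') : F) = y := by
    intro y hy
    change π₀ y = y
    simp [hπ₀, hy]
  set h : E' → F' := fun y => π (g (y : E)) with hh
  set ι : E' →L[ℂ] E := E'.subtypeL with hι
  have hιa : ∀ y : E', ι y = (y : E) := fun y => rfl
  have hmemE : ∀ y : E', lam (y : E) = 0 := fun y => LinearMap.mem_ker.1 y.2
  have hres := ih E' F' hrE hrF (ι ⁻¹' S.target) h (S.open_target.preimage ι.continuous)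
    (fun y hy => ?_) (fun a ha b hb hab => ?_) 0 (by simpa using h0t)
  · have hder : HasFDerivAt h (π.comp (A.comp ι)) 0 := by
      have h1 : HasFDerivAt g A (ι 0) := by rwa [map_zero]
      exact π.hasFDerivAt.comp (0 : E') (h1.comp (0 : E') ι.hasFDerivAt)
    rw [hder.fderiv] at hres
    -- injectivity of `A`
    have hker : ∀ k, A k = 0 → k = 0 := by
      intro k hk
      have h1 : lam k = 0 := by
        rw [hlam, ContinuousLinearMap.comp_apply, hk, map_zero]
      have h2 : k ∈ E' := by
        rw [hE', LinearMap.mem_ker]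
        exact h1
      have h3 : (⟨k, h2⟩ : E') = 0 := by
        apply hres
        have h4 : (π.comp (A.comp ι)) ⟨k, h2⟩ = π (A k) := rfl
        rw [h4, hk, map_zero, map_zero]
      exact congrArg Subtype.val h3
    intro a b hab
    have h1 := hker (a - b) (by rw [map_sub, hab, sub_self])
    exact sub_eq_zero.1 h1
  · have h1 : DifferentiableAt ℂ g (ι y) := hgd.differentiableAt (S.open_target.mem_nhds hy)
    have h2 := π.differentiableAt.comp y (h1.comp y ι.differentiableAt)
    exact h2.differentiableWithinAt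
  · have h1 : g (a : E) = g (b : E) := by
      have h2 := hπv (g a) ((hgl _ ha).trans (hmemE a))
      have h3 := hπv (g b) ((hgl _ hb).trans (hmemE b))
      rw [← h2, ← h3]
      exact congrArg Subtype.val hab
    exact Subtype.ext (hginj ha hb h1)

end slice

/-- **Osgood**: injective holomorphic maps have injective differentials, all dimensions -/
theorem osgN (n : ℕ) : OsgN.{u, v} n := by
  induction n with
  | zero =>
    intro E F _ _ _ _ _ _ hE _ U f _ _ _ x _ a b _
    have : Subsingleton E := Module.finrank_zero_iff.1 hE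
    exact Subsingleton.elim a b
  | succ n ih =>
    intro E F _ _ _ _ _ _ hE hF U f hU hf hinj x hx
    refine slice ih hE hF hU hf hinj hx ?_
    rcases Nat.lt_or_ge n 1 with hn | hn
    · have hn0 : n = 0 := by omega
      subst hn0
      exact fderiv_ne_zero_one hE hF hU hf hinj hx
    · exact fderiv_ne_zero_of_dich (by rw [hE, hF]) (by omega) hU hf hinj
        (fun y hy hy0 => slice ih hE hF hU hf hinj hy hy0) hx

/-- **Osgood's theorem** -/
theorem osgood {E : Type u} {F : Type v} [NormedAddCommGroup E] [NormedSpace ℂ E]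
    [FiniteDimensional ℂ E] [NormedAddCommGroup F] [NormedSpace ℂ F] [FiniteDimensional ℂ F]
    (hEF : finrank ℂ E = finrank ℂ F) {U : Set E} (hU : IsOpen U) {f : E → F}
    (hf : DifferentiableOn ℂ f U) (hinj : InjOn f U) {x : E} (hx : x ∈ U) :
    Function.Injective (fderiv ℂ f x) :=
  osgN _ E F rfl hEF.symm U f hU hf hinj x hx

theorem osg (E : Type u) [NormedAddCommGroup E] [NormedSpace ℂ E] [FiniteDimensional ℂ E] :
    Osg E := fun _ _ hU hh hinj _ hx => osgood rfl hU hh hinj hx

end Vale.Agent.P253.H661
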